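import Vale.Agent.P268.T.H594.Rest

/-!
# P268, topological half, route V: regularity of the level function over the cone of `y`
-/

set_option linter.unusedSectionVars false

namespace Vale.Agent.P268.T.RV

open Set Filter Topology

open H594

namespace H594

/-- Near a point of the open cone the position stays in the closed cone. -/
theorem pos_near {T N a : ℕ} (hN : a + 1 ≤ N) (_hNT : N ≤ T) {y₀ : ℂ} (hy₀ : y₀ ≠ 0)
    (hp : pos T y₀ < 2 * a + 3 ∨ 2 * (T : ℝ) < pos T y₀) :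
    ∀ᶠ y in 𝓝 y₀, pos T y ≤ 2 * N + 1 ∨ 2 * (T : ℝ) ≤ pos T y := by
  have hN' : (a : ℝ) + 1 ≤ N := by exact_mod_cast hN
  by_cases hcut : Complex.arg y₀ = Real.pi
  · filter_upwards [pos_near_cut (T := T) hcut one_pos] with y hy
    rcases hy with hy | hy
    · left
      have : (0 : ℝ) ≤ N := by positivity
      linarith
    · right; linarith
  · have hslit : y₀ ∈ Complex.slitPlane := by
      rw [Complex.mem_slitPlane_iff_arg]
      exact ⟨hcut, hy₀⟩
    have hc := continuousAt_pos (T := T) hslit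
    rcases hp with hp | hp
    · filter_upwards [hc.eventually (gt_mem_nhds hp)] with y hy
      left; linarith
    · filter_upwards [hc.eventually (lt_mem_nhds hp)] with y hy
      right; exact le_of_lt hy

/-- The core phase as a parameter, off `z = 0`. -/
theorem Vph_param {P : Type*} [TopologicalSpace P] {s : Set P} {p₀ : P} (a : ℕ) {ζ : P → ℂ}
    (hζ : ContinuousWithinAt ζ s p₀) (h0 : ζ p₀ ≠ 0) :
    ContinuousWithinAt (fun p => Vph a (ζ p)) s p₀ ∨
      ∀ᶠ p in 𝓝[s] p₀, Vph a (ζ p) = Real.pi ∨ Vph a (ζ p) = (2 * a + 3) * Real.pi := by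
  by_cases hcut : Complex.arg (ζ p₀) = Real.pi
  · right
    filter_upwards [hζ.eventually (pos_near_cut (T := a + 1) hcut one_pos)] with p hp
    have hm := pos_mem (a + 1) (ζ p)
    rcases hp with hp | hp
    · left
      unfold Vph
      have h1 : 2 * ((0 : ℕ) : ℝ) ≤ xc (a + 1) (Complex.arg (ζ p)) := by
        have : 0 ≤ xc (a + 1) (Complex.arg (ζ p)) := hm.1
        simpa using this
      have h2 : xc (a + 1) (Complex.arg (ζ p)) ≤ 2 * ((0 : ℕ) : ℝ) + 1 := by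
        have : xc (a + 1) (Complex.arg (ζ p)) < 1 := hp
        simpa using this.le
      rw [prof_eq_rest (Nat.zero_le _) h1 h2]
      push_cast
      ring
    · right
      unfold Vph
      have h1 : 2 * ((a + 1 : ℕ) : ℝ) ≤ xc (a + 1) (Complex.arg (ζ p)) := by
        have : 2 * ((a + 1 : ℕ) : ℝ) + 1 - 1 < xc (a + 1) (Complex.arg (ζ p)) := hp
        linarith
      rw [prof_eq_rest le_rfl h1 hm.2]
      push_cast
      ring
  · left
    have hslit : ζ p₀ ∈ Complex.slitPlane := by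
      rw [Complex.mem_slitPlane_iff_arg]
      exact ⟨hcut, h0⟩
    have hc : ContinuousAt (Vph a) (ζ p₀) :=
      (continuous_prof (a + 1)).continuousAt.comp (Complex.continuousAt_arg hslit)
    exact hc.comp_continuousWithinAt hζ

end H594

variable {E : Type*} [NormedAddCommGroup E] [NormedSpace ℝ E]

/-- `y₀` in an open turn `k ≤ a`: the direction of `y`. -/
theorem turn_reg {T N a k : ℕ} {L : ℝ} {B : E × ℂ → ℂ} (hB : IHw T N L B) (hN : a + 1 ≤ N)
    {lam t₀ : ℝ} (hlam : 0 ≤ lam) (_ht₀ : t₀ ∈ Icc (0 : ℝ) 1) {X₀ : E} {y₀ z₀ : ℂ}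
    (hy₀ : y₀ ≠ 0) (hz₀ : z₀ ≠ 0) (hk : k < T) (hka : k ≤ a)
    (h1 : 2 * (k : ℝ) + 1 < pos T y₀) (h2 : pos T y₀ < 2 * k + 2) :
    RegAt (Icc (0 : ℝ) 1) (fun t => levw T a B lam t) t₀ ((X₀, y₀), z₀) := by
  have hka' : (k : ℝ) ≤ a := by exact_mod_cast hka
  have hTa : (a : ℝ) + 1 ≤ T := by exact_mod_cast hN.trans hB.le
  -- near `y₀`
  have hcut : Complex.arg y₀ ≠ Real.pi := by
    intro h
    have h3 : pos T y₀ = 2 * T + 1 := by unfold pos; rw [h, xc_pi]
    have : (k : ℝ) + 1 ≤ T := by exact_mod_cast hk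
    linarith
  have hslit : y₀ ∈ Complex.slitPlane := by
    rw [Complex.mem_slitPlane_iff_arg]
    exact ⟨hcut, hy₀⟩
  have hc := continuousAt_pos (T := T) hslit
  have hU : {y | pos T y < 2 * k + 2} ∈ 𝓝 y₀ := hc.eventually (gt_mem_nhds h2)
  refine RegAt.fst ?_
  refine RegAt.snd ?_
  have hV := Vph_param (P := (ℝ × ℂ) × E) (s := (Icc (0 : ℝ) 1 ×ˢ (univ : Set ℂ)) ×ˢ (univ : Set E))
    (p₀ := ((t₀, z₀), X₀)) a (ζ := fun p => p.1.2)
    (continuous_snd.comp continuous_fst).continuousWithinAt hz₀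
  have hmem : ∀ᶠ p in 𝓝[(Icc (0 : ℝ) 1 ×ˢ (univ : Set ℂ)) ×ˢ (univ : Set E)] ((t₀, z₀), X₀),
      p ∈ (Icc (0 : ℝ) 1 ×ˢ (univ : Set ℂ)) ×ˢ (univ : Set E) := self_mem_nhdsWithin
  have hlc : ContinuousWithinAt (fun p : (ℝ × ℂ) × E => lam * (1 - p.1.1))
      ((Icc (0 : ℝ) 1 ×ˢ (univ : Set ℂ)) ×ˢ (univ : Set E)) ((t₀, z₀), X₀) := by
    have : Continuous fun p : (ℝ × ℂ) × E => lam * (1 - p.1.1) := by fun_prop
    exact this.continuousWithinAt
  have hkink := kink_turn (P := (ℝ × ℂ) × E)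
    (s := (Icc (0 : ℝ) 1 ×ˢ (univ : Set ℂ)) ×ˢ (univ : Set E)) (p₀ := ((t₀, z₀), X₀))
    (C := fun p => B (p.2, 0)) (ζ := fun p => ‖p.1.2‖) (V := fun p => Vph a p.1.2)
    (lam := fun p => lam * (1 - p.1.1)) (q := fun p => ‖p.1.2‖) hy₀ hk hka h1 h2 hlc
    (hmem.mono fun p hp => mul_nonneg hlam (by linarith [hp.1.1.2]))
    (Eventually.of_forall fun p => norm_nonneg _) hV
  refine hkink.congr ⟨_, hU, Eventually.of_forall fun p y hy => ?_⟩
  have hy' : pos T y < 2 * k + 2 := hy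
  have hcy : cy T a y = 0 := by
    unfold cy
    rw [clamp01_of_le_zero (by linarith), clamp01_of_le_zero (by linarith), sub_zero]
  have hN' : (a : ℝ) + 1 ≤ N := by exact_mod_cast hN
  have hcone := hB.cone p.2 y (Or.inl (by linarith))
  have hbw : bw T a lam p.1.1 y p.1.2 = min (lam * (1 - p.1.1) * ‖y‖) ‖p.1.2‖ := by
    unfold bw
    rw [hcy, mul_zero, add_zero, mul_assoc]
  show _ = levw T a B lam p.1.1 ((p.2, y), p.1.2)
  simp only [levw, lkw, hbw, hcone]
  ring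

/-- **Regularity over the cone of `y`.** -/
theorem cone_reg {T N a : ℕ} {L : ℝ} {B : E × ℂ → ℂ} (hB : IHw T N L B) (hN : a + 1 ≤ N)
    {lam t₀ : ℝ} (hlam : 0 ≤ lam) (ht₀ : t₀ ∈ Icc (0 : ℝ) 1) {X₀ : E} {y₀ z₀ : ℂ}
    (hy₀ : y₀ ≠ 0) (hz₀ : z₀ ≠ 0) (hp : pos T y₀ < 2 * a + 3 ∨ 2 * (T : ℝ) < pos T y₀)
    (hre : 0 ≤ (levw T a B lam t₀ ((X₀, y₀), z₀)).re) :
    RegAt (Icc (0 : ℝ) 1) (fun t => levw T a B lam t) t₀ ((X₀, y₀), z₀) := by
  have hTa : a + 1 ≤ T := hN.trans hB.le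
  have hN' : (a : ℝ) + 1 ≤ N := by exact_mod_cast hN
  rcases rest_or_turn (T := T) (pos_mem T y₀).1 (pos_mem T y₀).2 with
    ⟨k, hk, h1, h2⟩ | ⟨k, hk, h1, h2⟩
  · -- rests
    have hS : eI (Sph T y₀) = -1 := by
      unfold Sph
      have h3 := prof_eq_rest hk h1 h2
      rw [h3, show Real.pi + 2 * Real.pi * k - 2 * Real.pi =
        (Real.pi + 2 * k * Real.pi) + -(2 * Real.pi) by ring, eI_add, eI_odd, eI_neg_two_pi,
        mul_one]
    have hnear := pos_near hN hB.le hy₀ hp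
    have hcone := fun X : E => hB.cone X y₀ hnear.self_of_nhds
    by_cases hX : X₀ ≠ 0 ∧ 0 ≤ (B (X₀, 0)).re
    · -- the direction of `X`
      refine RegAt.fst ?_
      refine RegAt.fst ?_
      have hz := hB.tame.zreg () (mem_univ _) X₀ hX.1 hX.2
      have hM : RegAt ((Icc (0 : ℝ) 1 ×ˢ (univ : Set ℂ)) ×ˢ (univ : Set ℂ))
          (fun (_ : (ℝ × ℂ) × ℂ) X => B (X, 0)) ((t₀, z₀), y₀) X₀ := by
        have := RegAt.param (s := (univ : Set Unit) ×ˢ (univ : Set ℂ))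
          (s' := (Icc (0 : ℝ) 1 ×ˢ (univ : Set ℂ)) ×ˢ (univ : Set ℂ)) (t := ((t₀, z₀), y₀))
          (φ := fun _ : (ℝ × ℂ) × ℂ => ((() : Unit), (0 : ℂ)))
          (F := fun (p : Unit × ℂ) X => B (X, p.2)) continuousWithinAt_const
          (fun _ _ => ⟨mem_univ _, mem_univ _⟩) hz
        exact this
      have h3 := hM.add_const (fun p : (ℝ × ℂ) × ℂ => ((‖p.2‖ : ℝ) : ℂ) * eI (Sph T p.2) +
        lkw T a lam p.1.1 p.2 p.1.2)
      refine h3.congr ⟨univ, univ_mem, ?_⟩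
      have h4 : ∀ᶠ p : (ℝ × ℂ) × ℂ in
          𝓝[(Icc (0 : ℝ) 1 ×ˢ (univ : Set ℂ)) ×ˢ (univ : Set ℂ)] ((t₀, z₀), y₀),
          pos T p.2 ≤ 2 * N + 1 ∨ 2 * (T : ℝ) ≤ pos T p.2 :=
        ((continuous_snd.tendsto ((t₀, z₀), y₀)).eventually hnear).filter_mono
          nhdsWithin_le_nhds
      filter_upwards [h4] with p hp' X _
      show _ = levw T a B lam p.1.1 ((X, p.2), p.1.2)
      simp only [levw, hB.cone X p.2 hp']
      ring
    · -- the direction of `z`
      have hg : 0 ≤ (((‖y₀‖ : ℝ) : ℂ) * eI (Sph T y₀) + lkw T a lam t₀ y₀ z₀).re := by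
        have h3 : (levw T a B lam t₀ ((X₀, y₀), z₀)).re = (B (X₀, 0)).re +
            (((‖y₀‖ : ℝ) : ℂ) * eI (Sph T y₀) + lkw T a lam t₀ y₀ z₀).re := by
          simp only [levw, hcone X₀, Complex.add_re]
          ring
        rw [h3] at hre
        have h4 : (B (X₀, 0)).re ≤ 0 := by
          by_contra hcon
          rw [not_le] at hcon
          apply hX
          refine ⟨?_, hcon.le⟩
          rintro rfl
          have h5 : B (0, 0) = 0 := (hB.tame.fam.hom () (mem_univ _)).zero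
          rw [h5] at hcon
          exact lt_irrefl _ hcon
        linarith
      refine RegAt.snd ?_
      have h3 := rest_reg hTa hlam ht₀ hy₀ hz₀ hS hg
      have h4 : RegAt (Icc (0 : ℝ) 1 ×ˢ (univ : Set (E × ℂ)))
          (fun (p : ℝ × (E × ℂ)) z => lkw T a lam p.1 p.2.2 z) (t₀, (X₀, y₀)) z₀ := by
        have := RegAt.param (s := Icc (0 : ℝ) 1 ×ˢ (univ : Set ℂ))
          (s' := Icc (0 : ℝ) 1 ×ˢ (univ : Set (E × ℂ))) (t := (t₀, (X₀, y₀)))
          (φ := fun p : ℝ × (E × ℂ) => (p.1, p.2.2))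
          (F := fun (p : ℝ × ℂ) z => lkw T a lam p.1 p.2 z)
          (continuous_fst.prodMk (continuous_snd.comp continuous_snd)).continuousWithinAt
          (fun p hp => ⟨hp.1, mem_univ _⟩) h3
        exact this
      exact h4.add_const (fun p : ℝ × (E × ℂ) => B p.2)
  · -- turns
    have hka : k ≤ a := by
      rcases hp with hp | hp
      · have : (k : ℝ) < a + 1 := by linarith
        have : k < a + 1 := by exact_mod_cast this
        omega
      · exfalso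
        have : (k : ℝ) + 1 ≤ T := by exact_mod_cast hk
        linarith
    exact turn_reg hB hN hlam ht₀ hy₀ hz₀ hk hka h1 h2

end Vale.Agent.P268.T.RV
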