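import Vale.Agent.P268.T.H594.Exps

/-!
# P268, topological half: local angle lifts
-/

set_option linter.unusedSectionVars false

namespace Vale.Agent.P268.T

open Set Filter Topology

/-- `S` is near `y₀` the angle coordinate with value `s₀` at `y₀` and speed `al`. -/
def AngLift (S : ℂ → ℝ) (al : ℝ) (y₀ : ℂ) : Prop :=
  ∀ᶠ y in 𝓝 y₀, S y = S y₀ + al * Complex.arg (y / y₀)

theorem arg_exp_mul {u ξ : ℂ} (hu : u ≠ 0) (h1 : |Complex.arg u| < Real.pi / 2)
    (h2 : |ξ.im| < Real.pi / 2) : Complex.arg (Complex.exp ξ * u) = Complex.arg u + ξ.im := by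
  have hpi := Real.pi_pos
  obtain ⟨h3, h4⟩ := abs_lt.mp h1
  obtain ⟨h5, h6⟩ := abs_lt.mp h2
  have e1 : Complex.arg (Complex.exp ξ) = ξ.im := by
    rw [Complex.arg_exp]
    exact toIocMod_eq_self Real.two_pi_pos |>.mpr ⟨by linarith, by linarith⟩
  rw [Complex.arg_mul (Complex.exp_ne_zero _) hu (by rw [e1]; exact ⟨by linarith, by linarith⟩),
    e1]
  ring

theorem eventually_arg_small {y₀ : ℂ} (hy₀ : y₀ ≠ 0) {ε : ℝ} (hε : 0 < ε) :
    ∀ᶠ y in 𝓝 y₀, |Complex.arg (y / y₀)| < ε := by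
  have h1 : ContinuousAt (fun y : ℂ => Complex.arg (y / y₀)) y₀ := by
    refine ContinuousAt.comp (g := Complex.arg) ?_ (continuousAt_id.div_const _)
    refine Complex.continuousAt_arg ?_
    show y₀ / y₀ ∈ Complex.slitPlane
    rw [div_self hy₀]
    exact Complex.one_mem_slitPlane
  have h2 : Tendsto (fun y : ℂ => |Complex.arg (y / y₀)|) (𝓝 y₀) (𝓝 0) := by
    have := h1.abs.tendsto
    simpa [div_self hy₀] using this
  exact h2.eventually (gt_mem_nhds hε)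

theorem AngLift.exp {S : ℂ → ℝ} {al : ℝ} {y₀ : ℂ} (hy₀ : y₀ ≠ 0) (h : AngLift S al y₀) :
    ∃ U ∈ 𝓝 y₀, ∃ δ > 0, ∀ y ∈ U, ∀ ξ : ℂ, ‖ξ‖ ≤ δ →
      S (Complex.exp ξ * y) = S y + al * ξ.im := by
  obtain ⟨R, hR, hRb⟩ := Metric.eventually_nhds_iff_ball.mp
    (h.and (eventually_arg_small hy₀ (half_pos Real.pi_pos)))
  obtain ⟨U, hU, δ, hδ, hest⟩ := exp_mul_est (a₁ := 1) (a₂ := Complex.I) (y₀ := y₀)
    (ε := 1) one_pos
  have hc : ∀ ξ : ℂ, cols 1 Complex.I ξ = ξ := by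
    intro ξ; rw [cols_apply, mul_one]; exact Complex.re_add_im ξ
  refine ⟨U ∩ Metric.ball y₀ (min (R / 2) (‖y₀‖)), inter_mem hU
    (Metric.ball_mem_nhds _ (lt_min (half_pos hR) (norm_pos_iff.mpr hy₀))),
    min δ (min 1 (R / (2 * (‖y₀‖ + 2)))), by positivity, fun y hy ξ hξ => ?_⟩
  have h1 := hest y hy.1 ξ (hξ.trans (min_le_left _ _))
  rw [hc] at h1
  have hξ1 : ‖ξ‖ ≤ 1 := hξ.trans ((min_le_right _ _).trans (min_le_left _ _))
  have hξR : ‖ξ‖ ≤ R / (2 * (‖y₀‖ + 2)) := hξ.trans ((min_le_right _ _).trans (min_le_right _ _))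
  have hyR : ‖y - y₀‖ < R / 2 := by
    have := Metric.ball_subset_ball (min_le_left _ _) hy.2
    rwa [Metric.mem_ball, dist_eq_norm] at this
  have hy0 : y ≠ 0 := by
    rintro rfl
    have := Metric.ball_subset_ball (min_le_right _ _) hy.2
    rw [Metric.mem_ball, dist_eq_norm, zero_sub, norm_neg] at this
    exact lt_irrefl _ this
  have hyb : y ∈ Metric.ball y₀ R := by
    rw [Metric.mem_ball, dist_eq_norm]; linarith
  have hyb' : Complex.exp ξ * y ∈ Metric.ball y₀ R := by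
    rw [Metric.mem_ball, dist_eq_norm]
    have e : Complex.exp ξ * y - y₀ = (Complex.exp ξ * y - (y + y₀ * ξ)) + (y - y₀) + y₀ * ξ := by
      ring
    rw [e]
    have h2 : ‖y₀ * ξ‖ ≤ ‖y₀‖ * ‖ξ‖ := (norm_mul _ _).le
    have h3 : (‖y₀‖ + 2) * ‖ξ‖ ≤ R / 2 := by
      rw [le_div_iff₀ (by positivity)] at hξR
      linarith
    calc ‖(Complex.exp ξ * y - (y + y₀ * ξ)) + (y - y₀) + y₀ * ξ‖
        ≤ ‖Complex.exp ξ * y - (y + y₀ * ξ)‖ + ‖y - y₀‖ + ‖y₀ * ξ‖ := norm_add₃_le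
      _ < 1 * ‖ξ‖ + R / 2 + ‖y₀‖ * ‖ξ‖ := by linarith
      _ ≤ (‖y₀‖ + 2) * ‖ξ‖ + R / 2 := by nlinarith [norm_nonneg ξ]
      _ ≤ R := by linarith
  rw [(hRb _ hyb').1, (hRb _ hyb).1, mul_div_assoc, arg_exp_mul (div_ne_zero hy0 hy₀)
    (hRb _ hyb).2 ?_]
  · ring
  · have h4 : |ξ.im| ≤ 1 := (Complex.abs_im_le_norm ξ).trans hξ1
    have := Real.pi_gt_three
    linarith

theorem AngLift.continuousAt {S : ℂ → ℝ} {al : ℝ} {y₀ : ℂ} (hy₀ : y₀ ≠ 0)
    (h : AngLift S al y₀) : ContinuousAt S y₀ := by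
  have h1 : ContinuousAt (fun y : ℂ => S y₀ + al * Complex.arg (y / y₀)) y₀ := by
    refine continuousAt_const.add (continuousAt_const.mul ?_)
    refine ContinuousAt.comp (g := Complex.arg) ?_ (continuousAt_id.div_const _)
    refine Complex.continuousAt_arg ?_
    show y₀ / y₀ ∈ Complex.slitPlane
    rw [div_self hy₀]
    exact Complex.one_mem_slitPlane
  exact h1.congr (h.mono fun y hy => hy.symm)

theorem AngLift.locLip {T : Type*} [TopologicalSpace T] {s : Set T} {t₀ : T} {S : ℂ → ℝ} {al : ℝ}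
    {y₀ : ℂ} (hy₀ : y₀ ≠ 0) (h : AngLift S al y₀) : LocLip s (fun _ => S) t₀ y₀ := by
  have h1 : ContDiffAt ℝ 1 (fun y : ℂ => S y₀ + al * Complex.arg (y / y₀)) y₀ := by
    refine contDiffAt_const.add (contDiffAt_const.mul ?_)
    have h2 : ContDiffAt ℝ 1 (fun y : ℂ => (Complex.log (y / y₀)).im) y₀ := by
      have h3 : ContDiffAt ℂ 1 (fun y : ℂ => Complex.log (y / y₀)) y₀ := by
        refine ContDiffAt.comp (g := Complex.log) y₀ (Complex.contDiffAt_log ?_)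
          (contDiffAt_id.div_const _)
        show y₀ / y₀ ∈ Complex.slitPlane
        rw [div_self hy₀]; exact Complex.one_mem_slitPlane
      exact (Complex.imCLM.contDiff.contDiffAt).comp y₀ (h3.restrict_scalars ℝ)
    simpa [Complex.log_im] using h2
  refine (LocLip.of_contDiffAt (s := s) (t₀ := t₀) h1).congr ?_
  exact ⟨_, h, Eventually.of_forall fun t x hx => hx.symm⟩

/-- Real-valued Lipschitz composition into the circle. -/
theorem norm_expI_sub_le (a b : ℝ) :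
    ‖Complex.exp (Complex.I * a) - Complex.exp (Complex.I * b)‖ ≤ ‖a - b‖ := by
  have h1 : ‖Complex.exp (Complex.I * ((a - b : ℝ) : ℂ)) - 1‖ ≤ ‖a - b‖ := by
    have := Real.norm_exp_I_mul_ofReal_sub_one_le (x := a - b)
    exact this
  have e : Complex.exp (Complex.I * a) - Complex.exp (Complex.I * b) =
      Complex.exp (Complex.I * b) * (Complex.exp (Complex.I * ((a - b : ℝ) : ℂ)) - 1) := by
    rw [mul_sub, ← Complex.exp_add, mul_one]
    congr 2
    push_cast; ring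
  rw [e, norm_mul, mul_comm Complex.I, Complex.norm_exp_ofReal_mul_I, one_mul]
  exact h1

end Vale.Agent.P268.T
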