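import Vale.Agent.P268.T.H594.Plot

/-!
# P268, topological half: exponential plots

`LocLip` calculus, and regularity of functions which are sums of exponentials along a plot.
-/

set_option linter.unusedSectionVars false

namespace Vale.Agent.P268.T

open Set Filter Topology

section LL

variable {E : Type*} [NormedAddCommGroup E] [NormedSpace ℝ E]
  {T : Type*} [TopologicalSpace T] {V W : Type*} [NormedAddCommGroup V] [NormedAddCommGroup W]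
  {s : Set T} {t₀ : T} {x₀ : E}

/-- Locally bounded, uniformly in the parameter. -/
def LocBdd (s : Set T) (f : T → E → V) (t₀ : T) (x₀ : E) : Prop :=
  ∃ C : ℝ, ∃ U ∈ 𝓝 x₀, ∀ᶠ t in 𝓝[s] t₀, ∀ x ∈ U, ‖f t x‖ ≤ C

theorem LocLip.pos {f : T → E → V} (h : LocLip s f t₀ x₀) :
    ∃ L : ℝ, 0 < L ∧ ∃ U ∈ 𝓝 x₀, ∀ᶠ t in 𝓝[s] t₀, ∀ x ∈ U, ∀ y ∈ U,
      ‖f t x - f t y‖ ≤ L * ‖x - y‖ := by
  obtain ⟨L, U, hU, h⟩ := h
  refine ⟨|L| + 1, by positivity, U, hU, ?_⟩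
  filter_upwards [h] with t ht x hx y hy
  refine (ht x hx y hy).trans (mul_le_mul_of_nonneg_right ?_ (norm_nonneg _))
  linarith [le_abs_self L]

theorem LocBdd.pos {f : T → E → V} (h : LocBdd s f t₀ x₀) :
    ∃ C : ℝ, 0 < C ∧ ∃ U ∈ 𝓝 x₀, ∀ᶠ t in 𝓝[s] t₀, ∀ x ∈ U, ‖f t x‖ ≤ C := by
  obtain ⟨L, U, hU, h⟩ := h
  refine ⟨|L| + 1, by positivity, U, hU, ?_⟩
  filter_upwards [h] with t ht x hx
  exact (ht x hx).trans (by linarith [le_abs_self L])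

theorem LocLip.add {f g : T → E → V} (hf : LocLip s f t₀ x₀) (hg : LocLip s g t₀ x₀) :
    LocLip s (fun t x => f t x + g t x) t₀ x₀ := by
  obtain ⟨L, U, hU, h⟩ := hf
  obtain ⟨L', U', hU', h'⟩ := hg
  refine ⟨L + L', U ∩ U', inter_mem hU hU', ?_⟩
  filter_upwards [h, h'] with t e1 e2 x hx y hy
  have e : f t x + g t x - (f t y + g t y) = (f t x - f t y) + (g t x - g t y) := by abel
  rw [e, add_mul]
  exact (norm_add_le _ _).trans (add_le_add (e1 x hx.1 y hy.1) (e2 x hx.2 y hy.2))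

theorem LocLip.neg {f : T → E → V} (hf : LocLip s f t₀ x₀) :
    LocLip s (fun t x => -f t x) t₀ x₀ := by
  obtain ⟨L, U, hU, h⟩ := hf
  refine ⟨L, U, hU, ?_⟩
  filter_upwards [h] with t e1 x hx y hy
  rw [← norm_neg, neg_sub, sub_neg_eq_add, neg_add_eq_sub]
  rw [show f t x - f t y = f t x - f t y from rfl]
  exact e1 x hx y hy

theorem LocLip.sub594 {f g : T → E → V} (hf : LocLip s f t₀ x₀) (hg : LocLip s g t₀ x₀) :
    LocLip s (fun t x => f t x - g t x) t₀ x₀ := by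
  have := hf.add hg.neg
  simpa [sub_eq_add_neg] using this

theorem LocLip.of_const {f : T → E → V} {c : T → V} (hf : ∀ t x, f t x = c t) :
    LocLip s f t₀ x₀ :=
  ⟨0, univ, univ_mem, Eventually.of_forall fun t x _ y _ => by simp [hf]⟩

theorem LocLip.congr {f g : T → E → V} (hf : LocLip s f t₀ x₀)
    (h : ∃ U ∈ 𝓝 x₀, ∀ᶠ t in 𝓝[s] t₀, ∀ x ∈ U, f t x = g t x) : LocLip s g t₀ x₀ := by
  obtain ⟨L, U, hU, hL⟩ := hf
  obtain ⟨U', hU', h'⟩ := h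
  refine ⟨L, U ∩ U', inter_mem hU hU', ?_⟩
  filter_upwards [hL, h'] with t e1 e2 x hx y hy
  rw [← e2 x hx.2, ← e2 y hy.2]
  exact e1 x hx.1 y hy.1

theorem LocLip.comp_lip {f : T → E → V} (hf : LocLip s f t₀ x₀) {g : T → V → W} {K : ℝ}
    (hg : ∀ t a b, ‖g t a - g t b‖ ≤ K * ‖a - b‖) :
    LocLip s (fun t x => g t (f t x)) t₀ x₀ := by
  obtain ⟨L, hL, U, hU, h⟩ := hf.pos
  refine ⟨|K| * L, U, hU, ?_⟩
  filter_upwards [h] with t e1 x hx y hy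
  calc ‖g t (f t x) - g t (f t y)‖ ≤ K * ‖f t x - f t y‖ := hg _ _ _
    _ ≤ |K| * ‖f t x - f t y‖ := mul_le_mul_of_nonneg_right (le_abs_self K) (norm_nonneg _)
    _ ≤ |K| * (L * ‖x - y‖) := mul_le_mul_of_nonneg_left (e1 x hx y hy) (abs_nonneg _)
    _ = _ := by ring

theorem LocLip.mul {f g : T → E → ℂ} (hf : LocLip s f t₀ x₀) (hg : LocLip s g t₀ x₀)
    (bf : LocBdd s f t₀ x₀) (bg : LocBdd s g t₀ x₀) :
    LocLip s (fun t x => f t x * g t x) t₀ x₀ := by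
  obtain ⟨L, hL0, U, hU, h⟩ := hf.pos
  obtain ⟨L', hL0', U', hU', h'⟩ := hg.pos
  obtain ⟨C, hC, W, hW, b⟩ := bf.pos
  obtain ⟨C', hC', W', hW', b'⟩ := bg.pos
  refine ⟨C * L' + L * C', U ∩ U' ∩ (W ∩ W'), inter_mem (inter_mem hU hU') (inter_mem hW hW'), ?_⟩
  filter_upwards [h, h', b, b'] with t e1 e2 e3 e4 x hx y hy
  have e : f t x * g t x - f t y * g t y = f t x * (g t x - g t y) + (f t x - f t y) * g t y := by
    ring
  rw [e]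
  refine (norm_add_le _ _).trans ?_
  rw [norm_mul, norm_mul]
  have h1 := e1 x hx.1.1 y hy.1.1
  have h2 := e2 x hx.1.2 y hy.1.2
  have h3 := e3 x hx.2.1
  have h4 := e4 y hy.2.2
  calc ‖f t x‖ * ‖g t x - g t y‖ + ‖f t x - f t y‖ * ‖g t y‖
      ≤ C * (L' * ‖x - y‖) + L * ‖x - y‖ * C' := by
        refine add_le_add (mul_le_mul h3 h2 (norm_nonneg _) hC.le)
          (mul_le_mul h1 h4 (norm_nonneg _) (by positivity))
    _ = _ := by ring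

theorem LocBdd.of_cont {f : T → E → V}
    (h : ContinuousWithinAt (fun p : T × E => f p.1 p.2) (s ×ˢ univ) (t₀, x₀)) :
    LocBdd s f t₀ x₀ := by
  refine ⟨‖f t₀ x₀‖ + 1, ?_⟩
  have h1 := h.norm.eventually (gt_mem_nhds (lt_add_one ‖f t₀ x₀‖))
  obtain ⟨U, hU, hev⟩ := ev_prod (Q := fun t x => ‖f t x‖ < ‖f t₀ x₀‖ + 1) h1
  exact ⟨U, hU, hev.mono fun t ht x hx => (ht x hx).le⟩

/-- A single function which is `C¹` at `x₀`. -/
theorem LocLip.of_contDiffAt {V : Type*} [NormedAddCommGroup V] [NormedSpace ℝ V] {f : E → V}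
    (h : ContDiffAt ℝ 1 f x₀) : LocLip s (fun _ => f) t₀ x₀ := by
  obtain ⟨K, U, hU, hK⟩ := h.exists_lipschitzOnWith
  refine ⟨K, U, hU, Eventually.of_forall fun t x hx y hy => ?_⟩
  have := hK.dist_le_mul x hx y hy
  rwa [dist_eq_norm, dist_eq_norm] at this

theorem LocLip.of_lip {f : T → E → V} {K : ℝ} (h : ∀ t x y, ‖f t x - f t y‖ ≤ K * ‖x - y‖) :
    LocLip s f t₀ x₀ :=
  ⟨K, univ, univ_mem, Eventually.of_forall fun t x _ y _ => h t x y⟩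

end LL

/-- The cross product of two complex numbers. -/
def crs594 (p q : ℂ) : ℝ := p.re * q.im - p.im * q.re

/-- The real linear map with columns `p`, `q`. -/
noncomputable def cols (p q : ℂ) : ℂ →L[ℝ] ℂ :=
  (Complex.reCLM).smulRight p + (Complex.imCLM).smulRight q

theorem cols_apply (p q c : ℂ) : cols p q c = (c.re : ℂ) * p + (c.im : ℂ) * q := by
  simp [cols]

/-- The inverse of `cols p q`. -/
noncomputable def colsInv (p q : ℂ) : ℂ →L[ℝ] ℂ :=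
  (Complex.reCLM).smulRight (⟨q.im / crs594 p q, -p.im / crs594 p q⟩ : ℂ) +
    (Complex.imCLM).smulRight (⟨-q.re / crs594 p q, p.re / crs594 p q⟩ : ℂ)

theorem cols_colsInv {p q : ℂ} (h : crs594 p q ≠ 0) (c : ℂ) : cols p q (colsInv p q c) = c := by
  have e1 : (colsInv p q c).re = (c.re * q.im - c.im * q.re) / crs594 p q := by
    simp [colsInv]; ring
  have e2 : (colsInv p q c).im = (c.im * p.re - c.re * p.im) / crs594 p q := by
    simp [colsInv]; ring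
  rw [cols_apply, e1, e2]
  have hD : crs594 p q = p.re * q.im - p.im * q.re := rfl
  apply Complex.ext
  · simp only [Complex.add_re, Complex.mul_re, Complex.ofReal_re, Complex.ofReal_im, zero_mul,
      sub_zero]
    rw [div_mul_eq_mul_div, div_mul_eq_mul_div, ← add_div, div_eq_iff h, hD]
    ring
  · simp only [Complex.add_im, Complex.mul_im, Complex.ofReal_re, Complex.ofReal_im, zero_mul,
      add_zero]
    rw [div_mul_eq_mul_div, div_mul_eq_mul_div, ← add_div, div_eq_iff h, hD]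
    ring

theorem norm_cols_le (p q c : ℂ) : ‖cols p q c‖ ≤ (‖p‖ + ‖q‖) * ‖c‖ := by
  rw [cols_apply]
  refine (norm_add_le _ _).trans ?_
  rw [norm_mul, norm_mul, Complex.norm_real, Complex.norm_real, Real.norm_eq_abs,
    Real.norm_eq_abs]
  have h1 := Complex.abs_re_le_norm c
  have h2 := Complex.abs_im_le_norm c
  nlinarith [norm_nonneg p, norm_nonneg q]

section Exp

variable {T : Type*} [TopologicalSpace T]

/-- The exponential plot on `ℂ × ℂ`. -/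
noncomputable def ePlot (a₁ a₂ b₁ b₂ : ℂ) (c : ℂ) (x : ℂ × ℂ) : ℂ × ℂ :=
  (Complex.exp (cols a₁ a₂ c) * x.1, Complex.exp (cols b₁ b₂ c) * x.2)

/-- Its direction at `x₀`. -/
noncomputable def eDir (a₁ a₂ b₁ b₂ : ℂ) (x₀ : ℂ × ℂ) : ℂ →L[ℝ] ℂ × ℂ :=
  ((ContinuousLinearMap.mul ℝ ℂ x₀.1).comp (cols a₁ a₂)).prod
    ((ContinuousLinearMap.mul ℝ ℂ x₀.2).comp (cols b₁ b₂))

theorem eDir_apply (a₁ a₂ b₁ b₂ : ℂ) (x₀ : ℂ × ℂ) (c : ℂ) :
    eDir a₁ a₂ b₁ b₂ x₀ c = (x₀.1 * cols a₁ a₂ c, x₀.2 * cols b₁ b₂ c) := rfl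

theorem exp_mul_est {a₁ a₂ : ℂ} {y₀ : ℂ} {ε : ℝ} (hε : 0 < ε) :
    ∃ U ∈ 𝓝 y₀, ∃ δ > 0, ∀ y ∈ U, ∀ c : ℂ, ‖c‖ ≤ δ →
      ‖Complex.exp (cols a₁ a₂ c) * y - (y + y₀ * cols a₁ a₂ c)‖ ≤ ε * ‖c‖ := by
  set N : ℝ := ‖a₁‖ + ‖a₂‖ + 1 with hN
  have hN0 : 0 < N := by positivity
  refine ⟨Metric.ball y₀ (min 1 (ε / (2 * N))), Metric.ball_mem_nhds _ (by positivity),
    min (1 / N) (ε / (2 * N ^ 2 * (‖y₀‖ + 1))), by positivity, fun y hy c hc => ?_⟩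
  rw [Metric.mem_ball, dist_eq_norm] at hy
  set ξ := cols a₁ a₂ c with hξ
  have h1 : ‖ξ‖ ≤ N * ‖c‖ := (norm_cols_le a₁ a₂ c).trans
    (mul_le_mul_of_nonneg_right (by linarith) (norm_nonneg _))
  have h2 : ‖ξ‖ ≤ 1 := by
    refine h1.trans ?_
    have : ‖c‖ ≤ 1 / N := hc.trans (min_le_left _ _)
    calc N * ‖c‖ ≤ N * (1 / N) := mul_le_mul_of_nonneg_left this hN0.le
      _ = 1 := by field_simp
  have h3 := Complex.norm_exp_sub_one_sub_id_le h2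
  have h4 : ‖y‖ ≤ ‖y₀‖ + 1 := by
    have e : y = y₀ + (y - y₀) := by ring
    calc ‖y‖ = ‖y₀ + (y - y₀)‖ := by rw [← e]
      _ ≤ ‖y₀‖ + ‖y - y₀‖ := norm_add_le _ _
      _ ≤ _ := by linarith [min_le_left 1 (ε / (2 * N))]
  have e : Complex.exp ξ * y - (y + y₀ * ξ) =
      (Complex.exp ξ - 1 - ξ) * y + ξ * (y - y₀) := by ring
  rw [e]
  refine (norm_add_le _ _).trans ?_
  rw [norm_mul, norm_mul]
  have h5 : ‖c‖ ≤ ε / (2 * N ^ 2 * (‖y₀‖ + 1)) := hc.trans (min_le_right _ _)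
  have h6 : ‖y - y₀‖ ≤ ε / (2 * N) := hy.le.trans (min_le_right _ _)
  have h7 : ‖Complex.exp ξ - 1 - ξ‖ * ‖y‖ ≤ (N * ‖c‖) ^ 2 * (‖y₀‖ + 1) :=
    mul_le_mul (h3.trans (pow_le_pow_left₀ (norm_nonneg _) h1 2)) h4 (norm_nonneg _)
      (by positivity)
  have h8 : (N * ‖c‖) ^ 2 * (‖y₀‖ + 1) ≤ ε / 2 * ‖c‖ := by
    have e2 : (N * ‖c‖) ^ 2 * (‖y₀‖ + 1) = (N ^ 2 * (‖y₀‖ + 1) * ‖c‖) * ‖c‖ := by ring
    rw [e2]
    refine mul_le_mul_of_nonneg_right ?_ (norm_nonneg _)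
    rw [le_div_iff₀ (by positivity)] at h5
    linarith
  have h9 : ‖ξ‖ * ‖y - y₀‖ ≤ ε / 2 * ‖c‖ := by
    calc ‖ξ‖ * ‖y - y₀‖ ≤ N * ‖c‖ * (ε / (2 * N)) :=
          mul_le_mul h1 h6 (norm_nonneg _) (by positivity)
      _ = ε / 2 * ‖c‖ := by field_simp
  linarith

theorem isPlot_ePlot (a₁ a₂ b₁ b₂ : ℂ) (x₀ : ℂ × ℂ) :
    IsPlot (ePlot a₁ a₂ b₁ b₂) (eDir a₁ a₂ b₁ b₂ x₀) x₀ := by
  intro ε hε
  obtain ⟨U1, hU1, δ1, hδ1, h1⟩ := exp_mul_est (a₁ := a₁) (a₂ := a₂) (y₀ := x₀.1) hε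
  obtain ⟨U2, hU2, δ2, hδ2, h2⟩ := exp_mul_est (a₁ := b₁) (a₂ := b₂) (y₀ := x₀.2) hε
  refine ⟨U1 ×ˢ U2, prod_mem_nhds hU1 hU2, min δ1 δ2, lt_min hδ1 hδ2, fun x hx c hc => ?_⟩
  rw [eDir_apply, ePlot, Prod.norm_def, max_le_iff]
  exact ⟨h1 x.1 hx.1 c (hc.trans (min_le_left _ _)), h2 x.2 hx.2 c (hc.trans (min_le_right _ _))⟩

/-- Sums of exponentials: uniform first order expansion. -/
theorem exps_est {E : Type*} [TopologicalSpace E] {J : Type*} [Fintype J] {s : Set T} {t₀ : T}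
    {x₀ : E} (l₁ l₂ : J → ℂ) {P : J → T → E → ℂ}
    (hP : ∀ j, ContinuousWithinAt (fun p : T × E => P j p.1 p.2) (s ×ˢ univ) (t₀, x₀))
    {ε : ℝ} (hε : 0 < ε) :
    ∃ U ∈ 𝓝 x₀, ∃ δ > 0, ∀ᶠ t in 𝓝[s] t₀, ∀ x ∈ U, ∀ c : ℂ, ‖c‖ ≤ δ →
      ‖∑ j, Complex.exp (cols (l₁ j) (l₂ j) c) * P j t x - ∑ j, P j t x -
        cols (∑ j, l₁ j * P j t₀ x₀) (∑ j, l₂ j * P j t₀ x₀) c‖ ≤ ε * ‖c‖ := by
  -- each summand
  have key : ∀ j, ∃ δ > 0, ∀ᶠ p : T × E in 𝓝[s ×ˢ univ] (t₀, x₀), ∀ c : ℂ, ‖c‖ ≤ δ →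
      ‖Complex.exp (cols (l₁ j) (l₂ j) c) * P j p.1 p.2 - P j p.1 p.2 -
        cols (l₁ j * P j t₀ x₀) (l₂ j * P j t₀ x₀) c‖ ≤ ε / (Fintype.card J + 1) * ‖c‖ := by
    intro j
    have hε' : 0 < ε / (Fintype.card J + 1 : ℝ) := by positivity
    obtain ⟨U, hU, δ, hδ, h⟩ := exp_mul_est (a₁ := l₁ j) (a₂ := l₂ j) (y₀ := P j t₀ x₀) hε'
    refine ⟨δ, hδ, ?_⟩
    filter_upwards [(hP j).eventually hU] with p hp c hc
    have h1 := h _ hp c hc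
    have e : Complex.exp (cols (l₁ j) (l₂ j) c) * P j p.1 p.2 - P j p.1 p.2 -
        cols (l₁ j * P j t₀ x₀) (l₂ j * P j t₀ x₀) c =
        Complex.exp (cols (l₁ j) (l₂ j) c) * P j p.1 p.2 -
        (P j p.1 p.2 + P j t₀ x₀ * cols (l₁ j) (l₂ j) c) := by
      rw [cols_apply, cols_apply]; ring
    rw [e]; exact h1
  choose δ hδ hev using key
  have hall : ∀ᶠ p : T × E in 𝓝[s ×ˢ univ] (t₀, x₀), ∀ j, ∀ c : ℂ, ‖c‖ ≤ δ j →
      ‖Complex.exp (cols (l₁ j) (l₂ j) c) * P j p.1 p.2 - P j p.1 p.2 -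
        cols (l₁ j * P j t₀ x₀) (l₂ j * P j t₀ x₀) c‖ ≤ ε / (Fintype.card J + 1) * ‖c‖ :=
    eventually_all.mpr hev
  obtain ⟨d, hd, hdj⟩ : ∃ d > 0, ∀ j, d ≤ δ j := by
    by_cases hJ : Nonempty J
    · refine ⟨Finset.univ.inf' Finset.univ_nonempty δ, ?_, fun j =>
        Finset.inf'_le _ (Finset.mem_univ j)⟩
      obtain ⟨j, -, hj⟩ := Finset.exists_mem_eq_inf' (Finset.univ_nonempty (α := J)) δ
      rw [hj]; exact hδ j
    · exact ⟨1, one_pos, fun j => (hJ ⟨j⟩).elim⟩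
  rw [nhdsWithin_prod_eq, nhdsWithin_univ, eventually_prod_iff] at hall
  obtain ⟨pa, ha, pb, hb, hab⟩ := hall
  refine ⟨{x | pb x}, hb, d, hd, ha.mono fun t ht x hx c hc => ?_⟩
  have e : ∑ j, Complex.exp (cols (l₁ j) (l₂ j) c) * P j t x - ∑ j, P j t x -
        cols (∑ j, l₁ j * P j t₀ x₀) (∑ j, l₂ j * P j t₀ x₀) c =
      ∑ j, (Complex.exp (cols (l₁ j) (l₂ j) c) * P j t x - P j t x -
        cols (l₁ j * P j t₀ x₀) (l₂ j * P j t₀ x₀) c) := by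
    rw [Finset.sum_sub_distrib, Finset.sum_sub_distrib, cols_apply]
    congr 1
    simp only [cols_apply, Finset.sum_add_distrib, Finset.mul_sum]
  rw [e]
  refine (norm_sum_le _ _).trans ?_
  calc ∑ j, ‖Complex.exp (cols (l₁ j) (l₂ j) c) * P j t x - P j t x -
        cols (l₁ j * P j t₀ x₀) (l₂ j * P j t₀ x₀) c‖
      ≤ ∑ _j : J, ε / (Fintype.card J + 1) * ‖c‖ :=
        Finset.sum_le_sum fun j _ => hab ht hx j c (hc.trans (hdj j))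
    _ = Fintype.card J * (ε / (Fintype.card J + 1) * ‖c‖) := by
        rw [Finset.sum_const, Finset.card_univ, nsmul_eq_mul]
    _ ≤ ε * ‖c‖ := by
        have h0 : (0 : ℝ) ≤ Fintype.card J := by positivity
        have e2 : (Fintype.card J : ℝ) * (ε / (Fintype.card J + 1) * ‖c‖) =
            (Fintype.card J / (Fintype.card J + 1)) * (ε * ‖c‖) := by ring
        rw [e2]
        have h1 : (Fintype.card J : ℝ) / (Fintype.card J + 1) ≤ 1 := by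
          rw [div_le_one (by positivity)]; linarith
        calc _ ≤ 1 * (ε * ‖c‖) := mul_le_mul_of_nonneg_right h1 (by positivity)
          _ = _ := one_mul _

/-- **Exponential plots.** -/
theorem RegAt.of_exps {J : Type*} [Fintype J] {s : Set T} {F : T → ℂ × ℂ → ℂ} {t₀ : T}
    {x₀ : ℂ × ℂ} (hF : LocLip s F t₀ x₀) (a₁ a₂ b₁ b₂ : ℂ) (l₁ l₂ : J → ℂ)
    {P : J → T → ℂ × ℂ → ℂ}
    (hP : ∀ j, ContinuousWithinAt (fun p : T × (ℂ × ℂ) => P j p.1 p.2) (s ×ˢ univ) (t₀, x₀))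
    (h : ∃ U ∈ 𝓝 x₀, ∃ δ > 0, ∀ᶠ t in 𝓝[s] t₀, ∀ x ∈ U, ∀ c : ℂ, ‖c‖ ≤ δ →
      F t (ePlot a₁ a₂ b₁ b₂ c x) - F t x =
        ∑ j, Complex.exp (cols (l₁ j) (l₂ j) c) * P j t x - ∑ j, P j t x)
    (hD : crs594 (∑ j, l₁ j * P j t₀ x₀) (∑ j, l₂ j * P j t₀ x₀) ≠ 0) : RegAt s F t₀ x₀ := by
  set p := ∑ j, l₁ j * P j t₀ x₀ with hp
  set q := ∑ j, l₂ j * P j t₀ x₀ with hq
  set N : ℝ := ‖colsInv p q‖ + 1 with hN
  have hN0 : 0 < N := by positivity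
  obtain ⟨U1, hU1, δ1, hδ1, h1⟩ := exps_est (s := s) (t₀ := t₀) (x₀ := x₀) l₁ l₂ hP
    (ε := 1 / (2 * N)) (by positivity)
  obtain ⟨U2, hU2, δ2, hδ2, h2⟩ := h
  have hpl : IsPlot (fun c x => ePlot a₁ a₂ b₁ b₂ (colsInv p q c) x)
      ((eDir a₁ a₂ b₁ b₂ x₀).comp (colsInv p q)) x₀ := by
    intro ε hε
    obtain ⟨U, hU, δ, hδ, hb⟩ := isPlot_ePlot a₁ a₂ b₁ b₂ x₀ (ε / N) (by positivity)
    refine ⟨U, hU, δ / N, by positivity, fun x hx c hc => ?_⟩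
    have h3 : ‖colsInv p q c‖ ≤ N * ‖c‖ := ((colsInv p q).le_opNorm c).trans
      (mul_le_mul_of_nonneg_right (by linarith) (norm_nonneg _))
    have h4 : ‖colsInv p q c‖ ≤ δ := h3.trans (by
      rw [le_div_iff₀ hN0] at hc; linarith)
    refine (hb x hx _ h4).trans ?_
    calc ε / N * ‖colsInv p q c‖ ≤ ε / N * (N * ‖c‖) :=
          mul_le_mul_of_nonneg_left h3 (by positivity)
      _ = ε * ‖c‖ := by field_simp
  refine RegAt.of_plot (κ := 1 / 2) (Λ := 3 / 2) (by norm_num) hpl hF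
    ⟨U1 ∩ U2, inter_mem hU1 hU2, min δ1 δ2 / N, by positivity, ?_⟩
  filter_upwards [h1, h2] with t e1 e2 x hx c hc
  have h3 : ‖colsInv p q c‖ ≤ N * ‖c‖ := ((colsInv p q).le_opNorm c).trans
    (mul_le_mul_of_nonneg_right (by linarith) (norm_nonneg _))
  have h4 : ‖colsInv p q c‖ ≤ min δ1 δ2 := h3.trans (by
    rw [le_div_iff₀ hN0] at hc; linarith)
  have e3 := e1 x hx.1 (colsInv p q c) (h4.trans (min_le_left _ _))
  rw [cols_colsInv hD, ← e2 x hx.2 (colsInv p q c) (h4.trans (min_le_right _ _))] at e3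
  have e4 : ‖F t (ePlot a₁ a₂ b₁ b₂ (colsInv p q c) x) - F t x - c‖ ≤ 1 / 2 * ‖c‖ := by
    refine e3.trans ?_
    calc 1 / (2 * N) * ‖colsInv p q c‖ ≤ 1 / (2 * N) * (N * ‖c‖) :=
          mul_le_mul_of_nonneg_left h3 (by positivity)
      _ = 1 / 2 * ‖c‖ := by field_simp
  set D := F t (ePlot a₁ a₂ b₁ b₂ (colsInv p q c) x) - F t x with hDd
  have e5 : D = (D - c) + c := by ring
  constructor
  · rw [e5, inner_add_left, real_inner_self_eq_norm_sq]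
    have e6 : |inner ℝ (D - c) c| ≤ 1 / 2 * ‖c‖ * ‖c‖ :=
      (abs_real_inner_le_norm _ _).trans (mul_le_mul_of_nonneg_right e4 (norm_nonneg _))
    have e7 := (abs_le.mp e6).1
    nlinarith
  · rw [e5]
    refine (norm_add_le _ _).trans ?_
    linarith

end Exp

end Vale.Agent.P268.T
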