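import Vale.Agent.P268.T.H594.Lift

/-!
# P268, topological half: the kink lemma

Regularity in the `y`-direction of `|y| e^{iS(y)} + C + m(|y|) (e^{i Λ(S y)} - W)`, with a monotone
Lipschitz amplitude `m` and a monotone Lipschitz phase `Λ`.
-/

set_option linter.unusedSectionVars false

namespace Vale.Agent.P268.T

open Set Filter Topology

/-- The function of the kink lemma. -/
noncomputable def kinkFn {P : Type*} (S : ℂ → ℝ) (C W : P → ℂ) (m Λ : P → ℝ → ℝ) (p : P)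
    (y : ℂ) : ℂ :=
  (‖y‖ : ℂ) * Complex.exp (Complex.I * (S y : ℂ)) + C p +
    (m p ‖y‖ : ℂ) * (Complex.exp (Complex.I * (Λ p (S y) : ℂ)) - W p)

theorem norm_expI (a : ℝ) : ‖Complex.exp (Complex.I * (a : ℂ))‖ = 1 := by
  rw [mul_comm, Complex.norm_exp_ofReal_mul_I]

theorem expI_est (a b a₀ : ℝ) (h : |b - a| ≤ 1) :
    ‖Complex.exp (Complex.I * (b : ℂ)) - Complex.exp (Complex.I * (a : ℂ)) -
      Complex.I * Complex.exp (Complex.I * (a₀ : ℂ)) * ((b - a : ℝ) : ℂ)‖ ≤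
      (|a - a₀| + |b - a|) * |b - a| := by
  set d : ℝ := b - a with hd
  have h1 : Complex.exp (Complex.I * (b : ℂ)) =
      Complex.exp (Complex.I * (a : ℂ)) * Complex.exp (Complex.I * (d : ℂ)) := by
    rw [← Complex.exp_add]; congr 1; rw [hd]; push_cast; ring
  have e : Complex.exp (Complex.I * (b : ℂ)) - Complex.exp (Complex.I * (a : ℂ)) -
      Complex.I * Complex.exp (Complex.I * (a₀ : ℂ)) * (d : ℂ) =
      Complex.exp (Complex.I * (a : ℂ)) * (Complex.exp (Complex.I * (d : ℂ)) - 1 -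
        Complex.I * (d : ℂ)) +
      (Complex.exp (Complex.I * (a : ℂ)) - Complex.exp (Complex.I * (a₀ : ℂ))) *
        (Complex.I * (d : ℂ)) := by
    rw [h1]; ring
  rw [e]
  have h2 : ‖Complex.I * (d : ℂ)‖ = |d| := by
    rw [norm_mul, Complex.norm_I, one_mul, Complex.norm_real, Real.norm_eq_abs]
  have h3 : ‖Complex.exp (Complex.I * (d : ℂ)) - 1 - Complex.I * (d : ℂ)‖ ≤ |d| ^ 2 := by
    have := Complex.norm_exp_sub_one_sub_id_le (x := Complex.I * (d : ℂ)) (by rw [h2]; exact h)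
    rwa [h2] at this
  have h4 := norm_expI_sub_le a a₀
  rw [Real.norm_eq_abs] at h4
  refine (norm_add_le _ _).trans ?_
  rw [norm_mul, norm_mul, norm_expI, one_mul, h2]
  nlinarith [abs_nonneg d]

/-- The final inequality. -/
theorem kink_alg {r₀ ρ β ω₁ ω₂ K x z g e N : ℝ} (hr₀ : 0 < r₀) (_ : 0 < ρ)
    (hβ : 0 ≤ β * x) (hω₁ : 0 ≤ ω₁) (hω₂ : |ω₂| ≤ K) (hβK : |β| * K ≤ r₀ * ρ * |x|)
    (hg : 0 ≤ g * z) (he : |e| ≤ N) :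
    r₀ / 2 * (ρ ^ 2 * x ^ 2 + z ^ 2) - N ≤
      (r₀ * (ρ ^ 2 * x) + β * ω₁) * x + (r₀ * z + β * ω₂ + g) * z + e := by
  have h1 : |β * ω₂ * z| ≤ r₀ * ρ * |x| * |z| := by
    rw [abs_mul, abs_mul]
    refine mul_le_mul_of_nonneg_right ?_ (abs_nonneg _)
    exact (mul_le_mul_of_nonneg_left hω₂ (abs_nonneg _)).trans hβK
  have h2 := (abs_le.mp h1).1
  have h3 : ρ * |x| * |z| ≤ (ρ ^ 2 * x ^ 2 + z ^ 2) / 2 := by
    have := sq_nonneg (ρ * |x| - |z|)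
    nlinarith [sq_abs x, sq_abs z]
  have h4 := (abs_le.mp he).1
  have h5 : 0 ≤ β * ω₁ * x := by nlinarith
  nlinarith

/-- The two final estimates. -/
theorem kink_ineq {r₀ ρ ε B' K : ℝ} {E₀ ω : ℂ} {β mm' dL x z : ℝ} {c Er : ℂ} (hr₀ : 0 < r₀)
    (hρ0 : 0 < ρ) (hρ14 : ρ ≤ 1 / 4) (hε : ε = r₀ * ρ ^ 2 / 16) (hB' : 0 < B')
    (hE : ‖E₀‖ = 1) (hx : x = ((starRingEnd ℂ) E₀ * c).re) (hz : z = ((starRingEnd ℂ) E₀ * c).im)
    (hω : 0 ≤ ω.re) (hωK : ‖ω‖ ≤ K) (hβx : 0 ≤ β * x) (hKβ : |β| * K ≤ r₀ * ρ * |x|)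
    (hm0 : 0 ≤ mm') (hmB : mm' ≤ B') (hdL : |dL| ≤ |z|) (hdLz : 0 ≤ dL * z)
    (hEr : ‖Er‖ ≤ 3 * ε * ‖c‖) :
    r₀ * ρ ^ 2 / 4 * ‖c‖ ^ 2 ≤ inner ℝ (E₀ * (⟨r₀ * (ρ ^ 2 * x) + β * ω.re,
        r₀ * z + β * ω.im + mm' * dL⟩ : ℂ) + Er) c ∧
      ‖E₀ * (⟨r₀ * (ρ ^ 2 * x) + β * ω.re, r₀ * z + β * ω.im + mm' * dL⟩ : ℂ) + Er‖ ≤
        (4 * r₀ + B') * ‖c‖ := by
  have hn0 : 0 ≤ ‖c‖ := norm_nonneg c
  have hRn : ‖(starRingEnd ℂ) E₀ * c‖ = ‖c‖ := by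
    rw [norm_mul, RCLike.norm_conj, hE, one_mul]
  have hxc : |x| ≤ ‖c‖ := by rw [← hRn, hx]; exact Complex.abs_re_le_norm _
  have hzc : |z| ≤ ‖c‖ := by rw [← hRn, hz]; exact Complex.abs_im_le_norm _
  have hxz : x ^ 2 + z ^ 2 = ‖c‖ ^ 2 := by
    rw [← hRn, Complex.sq_norm, Complex.normSq_apply, hx, hz]; ring
  have hρsq : ρ ^ 2 ≤ 1 := pow_le_one₀ hρ0.le (by linarith)
  have hinner : ∀ w : ℂ, inner ℝ (E₀ * w) c = w.re * x + w.im * z := by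
    intro w
    rw [inner_complex, hx, hz]
    simp only [Complex.mul_re, Complex.mul_im, Complex.conj_re, Complex.conj_im]
    ring
  have hωim : |ω.im| ≤ K := (Complex.abs_im_le_norm _).trans hωK
  have hωre : |ω.re| ≤ K := (Complex.abs_re_le_norm _).trans hωK
  have hε0 : 0 ≤ ε := by rw [hε]; positivity
  constructor
  · rw [inner_add_left, hinner]
    have he0 : |inner ℝ Er c| ≤ 3 * ε * ‖c‖ ^ 2 := by
      refine (abs_real_inner_le_norm _ _).trans ?_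
      calc ‖Er‖ * ‖c‖ ≤ 3 * ε * ‖c‖ * ‖c‖ := mul_le_mul_of_nonneg_right hEr hn0
        _ = _ := by ring
    have hfin := kink_alg (x := x) (z := z) (β := β) (ω₁ := ω.re) (ω₂ := ω.im)
      (g := mm' * dL) hr₀ hρ0 hβx hω hωim hKβ
      (by rw [mul_assoc]; exact mul_nonneg hm0 hdLz) he0
    refine le_trans ?_ hfin
    have e1 : r₀ / 2 * (ρ ^ 2 * x ^ 2 + z ^ 2) ≥ r₀ / 2 * (ρ ^ 2 * ‖c‖ ^ 2) := by
      rw [← hxz]
      have : ρ ^ 2 * z ^ 2 ≤ z ^ 2 := by nlinarith [sq_nonneg z]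
      nlinarith
    have e2 : 3 * ε * ‖c‖ ^ 2 = 3 / 16 * (r₀ * ρ ^ 2 * ‖c‖ ^ 2) := by rw [hε]; ring
    have e3 : 0 ≤ r₀ * ρ ^ 2 * ‖c‖ ^ 2 := by positivity
    nlinarith
  · refine (norm_add_le _ _).trans ?_
    rw [norm_mul, hE, one_mul]
    have e1 := Complex.norm_le_abs_re_add_abs_im
      (⟨r₀ * (ρ ^ 2 * x) + β * ω.re, r₀ * z + β * ω.im + mm' * dL⟩ : ℂ)
    have e2 : |r₀ * (ρ ^ 2 * x) + β * ω.re| ≤ r₀ * ‖c‖ + r₀ * ρ * |x| := by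
      refine (abs_add_le _ _).trans (add_le_add ?_ ?_)
      · rw [abs_mul, abs_mul, abs_of_pos hr₀, abs_of_nonneg (by positivity : (0 : ℝ) ≤ ρ ^ 2)]
        refine mul_le_mul_of_nonneg_left ?_ hr₀.le
        calc ρ ^ 2 * |x| ≤ 1 * |x| := mul_le_mul_of_nonneg_right hρsq (abs_nonneg _)
          _ ≤ ‖c‖ := by rw [one_mul]; exact hxc
      · rw [abs_mul]
        exact le_trans (mul_le_mul_of_nonneg_left hωre (abs_nonneg _)) hKβ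
    have e3 : |r₀ * z + β * ω.im + mm' * dL| ≤ r₀ * ‖c‖ + r₀ * ρ * |x| + B' * ‖c‖ := by
      refine (abs_add_le _ _).trans (add_le_add ((abs_add_le _ _).trans (add_le_add ?_ ?_)) ?_)
      · rw [abs_mul, abs_of_pos hr₀]
        exact mul_le_mul_of_nonneg_left hzc hr₀.le
      · rw [abs_mul]
        exact le_trans (mul_le_mul_of_nonneg_left hωim (abs_nonneg _)) hKβ
      · rw [abs_mul, abs_of_nonneg hm0]
        exact mul_le_mul hmB (hdL.trans hzc) (abs_nonneg _) hB'.le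
    have e4 : r₀ * ρ * |x| ≤ 3 / 4 * (r₀ * ‖c‖) := by
      have h1 : r₀ * ρ * |x| ≤ r₀ * (1 / 4) * ‖c‖ := by gcongr
      have h2 : 0 ≤ r₀ * ‖c‖ := by positivity
      linarith
    have e5 : 3 * ε * ‖c‖ ≤ 1 / 4 * (r₀ * ‖c‖) := by
      have h1 : ε ≤ r₀ / 16 := by
        rw [hε]
        have : r₀ * ρ ^ 2 ≤ r₀ * 1 := mul_le_mul_of_nonneg_left hρsq hr₀.le
        linarith
      have h2 : 3 * ε * ‖c‖ ≤ 3 * (r₀ / 16) * ‖c‖ := by gcongr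
      have h3 : 0 ≤ r₀ * ‖c‖ := by positivity
      linarith
    have e6 : (⟨r₀ * (ρ ^ 2 * x) + β * ω.re, r₀ * z + β * ω.im + mm' * dL⟩ : ℂ).re =
      r₀ * (ρ ^ 2 * x) + β * ω.re := rfl
    have e7 : (⟨r₀ * (ρ ^ 2 * x) + β * ω.re, r₀ * z + β * ω.im + mm' * dL⟩ : ℂ).im =
      r₀ * z + β * ω.im + mm' * dL := rfl
    rw [e6, e7] at e1
    have h2 : 0 ≤ r₀ * ‖c‖ := by positivity
    have h3 : 0 ≤ B' * ‖c‖ := by positivity
    calc _ ≤ (r₀ * ‖c‖ + r₀ * ρ * |x|) + (r₀ * ‖c‖ + r₀ * ρ * |x| + B' * ‖c‖) + 3 * ε * ‖c‖ := by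
          linarith
      _ ≤ (4 * r₀ + B') * ‖c‖ := by linarith

/-- The pointwise step. -/
theorem kink_step {r₀ ρ ε ε₂ ε₃ B' K L' : ℝ} {E₀ ω₀ L₀ : ℂ} {n n' mm mm' dL x z : ℝ}
    {c Pt e e' Wp Cp : ℂ} (hr₀ : 0 < r₀) (hρ0 : 0 < ρ) (hρ14 : ρ ≤ 1 / 4)
    (hL'0 : 0 < L') (hK0 : 0 < K) (hρ4 : 4 * L' * K * ρ = 1)
    (hε : ε = r₀ * ρ ^ 2 / 16) (hε₂ : ε₂ = ε / (4 * L' * r₀)) (hε₃ : ε₃ = ε / (2 * B'))
    (hB' : 0 < B') (hE : ‖E₀‖ = 1)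
    (hx : x = ((starRingEnd ℂ) E₀ * c).re) (hz : z = ((starRingEnd ℂ) E₀ * c).im)
    (hω : 0 ≤ (ω₀ * (starRingEnd ℂ) E₀).re) (hωK : ‖ω₀‖ ≤ K)
    (hc6 : ‖c‖ ≤ 1 / 6) (hn0 : 0 ≤ n) (hn : n ≤ 3 / 2 * r₀) (hn' : n' = Real.exp (ρ ^ 2 * x) * n)
    (hmm : ∀ r r', 0 ≤ r → r ≤ r' → (r = n ∧ r' = n' → 0 ≤ mm' - mm ∧ mm' - mm ≤ L' * (n' - n)) ∧
      (r = n' ∧ r' = n → 0 ≤ mm - mm' ∧ mm - mm' ≤ L' * (n - n')))
    (hm0 : 0 ≤ mm') (hmB : mm' ≤ B') (hdL : |dL| ≤ |z|) (hdLz : 0 ≤ dL * z)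
    (h1 : ‖Complex.exp (cols ((ρ ^ 2 : ℝ) : ℂ) Complex.I ((starRingEnd ℂ) E₀ * c)) * Pt -
      (Pt + (r₀ : ℂ) * E₀ * cols ((ρ ^ 2 : ℝ) : ℂ) Complex.I ((starRingEnd ℂ) E₀ * c))‖ ≤
        ε * ‖c‖)
    (h2 : ‖e - Wp - ω₀‖ ≤ ε₂) (h3 : ‖e' - e - Complex.I * L₀ * (dL : ℂ)‖ ≤ (ε₃ + ε₃) * ‖c‖)
    (h5 : Complex.I * L₀ * (dL : ℂ) = E₀ * (Complex.I * (dL : ℂ))) :
    r₀ * ρ ^ 2 / 4 * ‖c‖ ^ 2 ≤ inner ℝ
      ((Complex.exp (cols ((ρ ^ 2 : ℝ) : ℂ) Complex.I ((starRingEnd ℂ) E₀ * c)) * Pt + Cp +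
        (mm' : ℂ) * (e' - Wp)) - (Pt + Cp + (mm : ℂ) * (e - Wp))) c ∧
      ‖(Complex.exp (cols ((ρ ^ 2 : ℝ) : ℂ) Complex.I ((starRingEnd ℂ) E₀ * c)) * Pt + Cp +
        (mm' : ℂ) * (e' - Wp)) - (Pt + Cp + (mm : ℂ) * (e - Wp))‖ ≤ (4 * r₀ + B') * ‖c‖ := by
  have hEE : E₀ * (starRingEnd ℂ) E₀ = 1 := by
    rw [Complex.mul_conj, Complex.normSq_eq_norm_sq, hE]; simp
  have hcn : 0 ≤ ‖c‖ := norm_nonneg c
  have hRn : ‖(starRingEnd ℂ) E₀ * c‖ = ‖c‖ := by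
    rw [norm_mul, RCLike.norm_conj, hE, one_mul]
  have hxc : |x| ≤ ‖c‖ := by rw [← hRn, hx]; exact Complex.abs_re_le_norm _
  have hρsq : ρ ^ 2 ≤ 1 := pow_le_one₀ hρ0.le (by linarith)
  have hα1 : |ρ ^ 2 * x| ≤ 1 / 6 := by
    rw [abs_mul, abs_of_nonneg (by positivity)]
    calc ρ ^ 2 * |x| ≤ 1 * |x| := mul_le_mul_of_nonneg_right hρsq (abs_nonneg _)
      _ ≤ 1 / 6 := by rw [one_mul]; exact hxc.trans hc6
  have hexp : |Real.exp (ρ ^ 2 * x) - 1| ≤ 2 * |ρ ^ 2 * x| :=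
    Real.abs_exp_sub_one_le (by linarith)
  have hdr : |n' - n| ≤ 3 * r₀ * ρ ^ 2 * |x| := by
    have e : n' - n = (Real.exp (ρ ^ 2 * x) - 1) * n := by rw [hn']; ring
    rw [e, abs_mul, abs_of_nonneg hn0]
    calc |Real.exp (ρ ^ 2 * x) - 1| * n ≤ 2 * |ρ ^ 2 * x| * (3 / 2 * r₀) :=
          mul_le_mul hexp hn hn0 (by positivity)
      _ = 3 * r₀ * ρ ^ 2 * |x| := by
          rw [abs_mul, abs_of_nonneg (by positivity : (0 : ℝ) ≤ ρ ^ 2)]; ring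
  have hn'0 : 0 ≤ n' := by rw [hn']; positivity
  set β : ℝ := mm' - mm with hβ
  have hββ : |β| ≤ L' * |n' - n| ∧ 0 ≤ β * x := by
    rcases le_total 0 x with h | h
    · have hle : n ≤ n' := by
        rw [hn']
        have : 1 ≤ Real.exp (ρ ^ 2 * x) := Real.one_le_exp (by positivity)
        nlinarith
      obtain ⟨e1, e2⟩ := (hmm n n' hn0 hle).1 ⟨rfl, rfl⟩
      rw [abs_of_nonneg e1, abs_of_nonneg (sub_nonneg.mpr hle)]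
      exact ⟨e2, mul_nonneg e1 h⟩
    · have hle : n' ≤ n := by
        rw [hn']
        have : Real.exp (ρ ^ 2 * x) ≤ 1 := by
          rw [Real.exp_le_one_iff]
          exact mul_nonpos_of_nonneg_of_nonpos (by positivity) h
        nlinarith
      obtain ⟨e1, e2⟩ := (hmm n' n hn'0 hle).2 ⟨rfl, rfl⟩
      have e3 : β ≤ 0 := by rw [hβ]; linarith
      rw [abs_of_nonpos e3, abs_of_nonpos (sub_nonpos.mpr hle), hβ]
      refine ⟨?_, mul_nonneg_of_nonpos_of_nonpos e3 h⟩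
      have : L' * -(n' - n) = L' * (n - n') := by ring
      rw [this]; linarith
  obtain ⟨hβabs, hβx⟩ := hββ
  have hβ1 : |β| ≤ L' * (3 * r₀ * ρ ^ 2 * |x|) :=
    hβabs.trans (mul_le_mul_of_nonneg_left hdr hL'0.le)
  have hKβ : |β| * K ≤ r₀ * ρ * |x| := by
    have h0 : 0 ≤ r₀ * ρ * |x| := by positivity
    calc |β| * K ≤ L' * (3 * r₀ * ρ ^ 2 * |x|) * K := mul_le_mul_of_nonneg_right hβ1 hK0.le
      _ = 3 / 4 * (4 * L' * K * ρ) * (r₀ * ρ * |x|) := by ring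
      _ ≤ r₀ * ρ * |x| := by rw [hρ4]; linarith
  have hε0 : 0 < ε := by rw [hε]; positivity
  set Er1 : ℂ := Complex.exp (cols ((ρ ^ 2 : ℝ) : ℂ) Complex.I ((starRingEnd ℂ) E₀ * c)) * Pt -
      (Pt + (r₀ : ℂ) * E₀ * cols ((ρ ^ 2 : ℝ) : ℂ) Complex.I ((starRingEnd ℂ) E₀ * c)) with hEr1
  set Er2 : ℂ := (β : ℂ) * (e - Wp - ω₀) with hEr2
  have hEr2n : ‖Er2‖ ≤ ε * ‖c‖ := by
    rw [hEr2, norm_mul, Complex.norm_real, Real.norm_eq_abs]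
    have h0 : 0 ≤ ε * ‖c‖ := by positivity
    calc |β| * ‖e - Wp - ω₀‖ ≤ L' * (3 * r₀ * ρ ^ 2 * |x|) * ε₂ :=
          mul_le_mul hβ1 h2 (norm_nonneg _) (by positivity)
      _ = 3 / 4 * ε * ρ ^ 2 * |x| := by rw [hε₂]; field_simp
      _ ≤ 3 / 4 * ε * 1 * ‖c‖ := by gcongr
      _ ≤ ε * ‖c‖ := by linarith
  set Er3 : ℂ := (mm' : ℂ) * (e' - e - Complex.I * L₀ * (dL : ℂ)) with hEr3
  have hEr3n : ‖Er3‖ ≤ ε * ‖c‖ := by
    rw [hEr3, norm_mul, Complex.norm_real, Real.norm_eq_abs, abs_of_nonneg hm0]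
    calc mm' * _ ≤ B' * ((ε₃ + ε₃) * ‖c‖) := mul_le_mul hmB h3 (norm_nonneg _) hB'.le
      _ = ε * ‖c‖ := by rw [hε₃]; field_simp; ring
  have hErr : ‖Er1 + Er2 + Er3‖ ≤ 3 * ε * ‖c‖ := by
    refine norm_add₃_le.trans ?_
    linarith
  have hdec : (Complex.exp (cols ((ρ ^ 2 : ℝ) : ℂ) Complex.I ((starRingEnd ℂ) E₀ * c)) * Pt + Cp +
        (mm' : ℂ) * (e' - Wp)) - (Pt + Cp + (mm : ℂ) * (e - Wp)) =
      E₀ * (⟨r₀ * (ρ ^ 2 * x) + β * (ω₀ * (starRingEnd ℂ) E₀).re,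
        r₀ * z + β * (ω₀ * (starRingEnd ℂ) E₀).im + mm' * dL⟩ : ℂ) + (Er1 + Er2 + Er3) := by
    have hω₀' : ω₀ = E₀ * (ω₀ * (starRingEnd ℂ) E₀) := by
      rw [mul_comm ω₀, ← mul_assoc, hEE, one_mul]
    set ω : ℂ := ω₀ * (starRingEnd ℂ) E₀ with hω'
    have hZ' : (⟨r₀ * (ρ ^ 2 * x) + β * ω.re, r₀ * z + β * ω.im + mm' * dL⟩ : ℂ) =
        (r₀ : ℂ) * ((x : ℂ) * ((ρ ^ 2 : ℝ) : ℂ) + (z : ℂ) * Complex.I) +
        (β : ℂ) * ω + (mm' : ℂ) * (Complex.I * (dL : ℂ)) := by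
      apply Complex.ext
      · simp only [Complex.add_re, Complex.mul_re, Complex.ofReal_re, Complex.ofReal_im,
          Complex.I_re, Complex.I_im]
        ring
      · simp only [Complex.add_im, Complex.mul_im, Complex.ofReal_re, Complex.ofReal_im,
          Complex.I_re, Complex.I_im, Complex.add_re, Complex.mul_re]
        ring
    have hcol : cols ((ρ ^ 2 : ℝ) : ℂ) Complex.I ((starRingEnd ℂ) E₀ * c) =
        (x : ℂ) * ((ρ ^ 2 : ℝ) : ℂ) + (z : ℂ) * Complex.I := by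
      rw [cols_apply, hx, hz]
    rw [hZ', hEr1, hEr2, hEr3, hcol, h5]
    have hβc : (β : ℂ) = (mm' : ℂ) - (mm : ℂ) := by rw [hβ]; push_cast; ring
    have h6 : (β : ℂ) * ω₀ = E₀ * ((β : ℂ) * ω) := by
      conv_lhs => rw [hω₀']
      ring
    have h7 : (β : ℂ) * (e - Wp - ω₀) = ((mm' : ℂ) - (mm : ℂ)) * (e - Wp) - E₀ * ((β : ℂ) * ω) := by
      rw [← h6, ← hβc]; ring
    rw [h7]
    ring
  rw [hdec]
  exact kink_ineq hr₀ hρ0 hρ14 hε hB' hE hx hz hω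
    (by rw [norm_mul, RCLike.norm_conj, hE, mul_one]; exact hωK) hβx hKβ hm0 hmB hdL hdLz hErr

section Main

variable {P : Type*} [TopologicalSpace P] {s : Set P} {p₀ : P} {y₀ : ℂ} {S : ℂ → ℝ} {al : ℝ}
  {C W : P → ℂ} {m Λ : P → ℝ → ℝ} {L B : ℝ}

theorem amp_lip (hm : ∀ᶠ p in 𝓝[s] p₀, ∀ r r', 0 ≤ r → r ≤ r' →
      0 ≤ m p r' - m p r ∧ m p r' - m p r ≤ L * (r' - r)) :
    ∀ᶠ p in 𝓝[s] p₀, ∀ r r', 0 ≤ r → r ≤ r' →
      0 ≤ m p r' - m p r ∧ m p r' - m p r ≤ (|L| + 1) * (r' - r) := by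
  filter_upwards [hm] with p hp r r' hr hrr
  obtain ⟨e1, e2⟩ := hp r r' hr hrr
  refine ⟨e1, e2.trans (mul_le_mul_of_nonneg_right ?_ (by linarith))⟩
  linarith [le_abs_self L]

theorem amp_bdd (hm : ∀ᶠ p in 𝓝[s] p₀, ∀ r r', 0 ≤ r → r ≤ r' →
      0 ≤ m p r' - m p r ∧ m p r' - m p r ≤ L * (r' - r))
    (hm0 : ∀ᶠ p in 𝓝[s] p₀, 0 ≤ m p 0 ∧ m p 0 ≤ B) (r₀ : ℝ) :
    ∀ᶠ p in 𝓝[s] p₀, ∀ r, 0 ≤ r → r ≤ 2 * r₀ →
      0 ≤ m p r ∧ m p r ≤ |B| + (|L| + 1) * (2 * r₀) + 1 := by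
  filter_upwards [amp_lip hm, hm0] with p e1 e2 r hr hr2
  obtain ⟨e3, e4⟩ := e1 0 r le_rfl hr
  refine ⟨by linarith [e2.1], ?_⟩
  have e5 : (|L| + 1) * (r - 0) ≤ (|L| + 1) * (2 * r₀) := by
    rw [sub_zero]; exact mul_le_mul_of_nonneg_left hr2 (by positivity)
  linarith [e2.2, le_abs_self B]

theorem phase_cont (hy₀ : y₀ ≠ 0) (hS : AngLift S al y₀)
    (hΛ : ContinuousWithinAt (fun x : P × ℝ => Λ x.1 x.2) (s ×ˢ univ) (p₀, S y₀)) :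
    ContinuousWithinAt (fun x : P × ℂ => Λ x.1 (S x.2)) (s ×ˢ univ) (p₀, y₀) := by
  have e1 : ContinuousWithinAt (fun x : P × ℂ => (x.1, S x.2)) (s ×ˢ univ) (p₀, y₀) :=
    continuousWithinAt_fst.prodMk
      (((hS.continuousAt hy₀).comp continuousAt_snd).continuousWithinAt)
  exact ContinuousWithinAt.comp (t := s ×ˢ (univ : Set ℝ)) (g := fun x : P × ℝ => Λ x.1 x.2)
    (f := fun x : P × ℂ => (x.1, S x.2)) hΛ e1 (fun x hx => ⟨hx.1, mem_univ _⟩)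

theorem omega_cont (hy₀ : y₀ ≠ 0) (hS : AngLift S al y₀) (hW : ContinuousWithinAt W s p₀)
    (hΛ : ContinuousWithinAt (fun x : P × ℝ => Λ x.1 x.2) (s ×ˢ univ) (p₀, S y₀)) :
    ContinuousWithinAt
      (fun x : P × ℂ => Complex.exp (Complex.I * (Λ x.1 (S x.2) : ℂ)) - W x.1)
      (s ×ˢ univ) (p₀, y₀) := by
  have e1 : ContinuousWithinAt (fun x : P × ℂ => W x.1) (s ×ˢ univ) (p₀, y₀) :=
    ContinuousWithinAt.comp (t := s) (g := W) (f := Prod.fst) hW continuousWithinAt_fst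
      (fun x hx => hx.1)
  exact (Complex.continuous_exp.continuousAt.comp_continuousWithinAt
    (continuousWithinAt_const.mul
      (Complex.continuous_ofReal.continuousAt.comp_continuousWithinAt
        (phase_cont hy₀ hS hΛ)))).sub e1

theorem kink_locLip (hy₀ : y₀ ≠ 0) (hS : AngLift S al y₀)
    (hm : ∀ᶠ p in 𝓝[s] p₀, ∀ r r', 0 ≤ r → r ≤ r' →
      0 ≤ m p r' - m p r ∧ m p r' - m p r ≤ L * (r' - r))
    (hm0 : ∀ᶠ p in 𝓝[s] p₀, 0 ≤ m p 0 ∧ m p 0 ≤ B)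
    (hW : ContinuousWithinAt W s p₀)
    (hΛ : ContinuousWithinAt (fun x : P × ℝ => Λ x.1 x.2) (s ×ˢ univ) (p₀, S y₀))
    (hmono : ∀ᶠ p in 𝓝[s] p₀, ∀ u v, u ≤ v → 0 ≤ Λ p v - Λ p u ∧ Λ p v - Λ p u ≤ v - u) :
    LocLip s (kinkFn S C W m Λ) p₀ y₀ := by
  have hr₀0 : 0 < ‖y₀‖ := norm_pos_iff.mpr hy₀
  have l1 : LocLip s (fun (_ : P) (y : ℂ) => (‖y‖ : ℂ)) p₀ y₀ :=
    LocLip.of_lip (K := 1) fun _ x y => by
      rw [← Complex.ofReal_sub, Complex.norm_real, one_mul, Real.norm_eq_abs]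
      exact abs_norm_sub_norm_le x y
  have lS : LocLip s (fun (_ : P) => S) p₀ y₀ := hS.locLip hy₀
  have l2 : LocLip s (fun (_ : P) (y : ℂ) => Complex.exp (Complex.I * (S y : ℂ))) p₀ y₀ :=
    lS.comp_lip (g := fun _ a => Complex.exp (Complex.I * (a : ℂ))) (K := 1)
      (fun _ a b => by rw [one_mul]; exact norm_expI_sub_le a b)
  have b1 : LocBdd s (fun (_ : P) (y : ℂ) => (‖y‖ : ℂ)) p₀ y₀ := by
    refine LocBdd.of_cont ?_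
    exact (Complex.continuous_ofReal.comp (continuous_norm.comp
      continuous_snd)).continuousWithinAt
  have b2 : LocBdd s (fun (_ : P) (y : ℂ) => Complex.exp (Complex.I * (S y : ℂ))) p₀ y₀ :=
    ⟨1, univ, univ_mem, Eventually.of_forall fun _ y _ => (norm_expI (S y)).le⟩
  have l3 : LocLip s (fun (p : P) (y : ℂ) => (m p ‖y‖ : ℂ)) p₀ y₀ := by
    refine ⟨|L| + 1, univ, univ_mem, ?_⟩
    filter_upwards [amp_lip hm] with p hp x _ y _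
    rw [← Complex.ofReal_sub, Complex.norm_real, Real.norm_eq_abs]
    have hnn := abs_norm_sub_norm_le x y
    rcases le_total ‖x‖ ‖y‖ with h | h
    · obtain ⟨e1, e2⟩ := hp _ _ (norm_nonneg _) h
      rw [abs_sub_comm, abs_of_nonneg e1]
      refine e2.trans (mul_le_mul_of_nonneg_left ?_ (by positivity))
      linarith [neg_abs_le (‖x‖ - ‖y‖)]
    · obtain ⟨e1, e2⟩ := hp _ _ (norm_nonneg _) h
      rw [abs_of_nonneg e1]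
      refine e2.trans (mul_le_mul_of_nonneg_left ?_ (by positivity))
      linarith [le_abs_self (‖x‖ - ‖y‖)]
  have b3 : LocBdd s (fun (p : P) (y : ℂ) => (m p ‖y‖ : ℂ)) p₀ y₀ := by
    refine ⟨|B| + (|L| + 1) * (2 * ‖y₀‖) + 1, Metric.ball y₀ ‖y₀‖,
      Metric.ball_mem_nhds _ hr₀0, ?_⟩
    filter_upwards [amp_bdd hm hm0 ‖y₀‖] with p e1 y hy
    have e3 : ‖y‖ ≤ 2 * ‖y₀‖ := by
      rw [Metric.mem_ball, dist_eq_norm] at hy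
      have : ‖y‖ ≤ ‖y₀‖ + ‖y - y₀‖ := by
        have e : y = y₀ + (y - y₀) := by ring
        calc ‖y‖ = ‖y₀ + (y - y₀)‖ := by rw [← e]
          _ ≤ _ := norm_add_le _ _
      linarith
    obtain ⟨e4, e5⟩ := e1 _ (norm_nonneg y) e3
    rw [Complex.norm_real, Real.norm_eq_abs, abs_of_nonneg e4]
    exact e5
  have l4 : LocLip s (fun (p : P) (y : ℂ) =>
      Complex.exp (Complex.I * (Λ p (S y) : ℂ)) - W p) p₀ y₀ := by
    obtain ⟨Ls, hLs, Us, hUs, hls⟩ := lS.pos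
    refine ⟨Ls, Us, hUs, ?_⟩
    filter_upwards [hmono, hls] with p e1 e2 x hx y hy
    have e3 : Complex.exp (Complex.I * (Λ p (S x) : ℂ)) - W p -
        (Complex.exp (Complex.I * (Λ p (S y) : ℂ)) - W p) =
        Complex.exp (Complex.I * (Λ p (S x) : ℂ)) -
          Complex.exp (Complex.I * (Λ p (S y) : ℂ)) := by ring
    rw [e3]
    refine (norm_expI_sub_le _ _).trans ?_
    refine le_trans ?_ (e2 x hx y hy)
    rw [Real.norm_eq_abs, Real.norm_eq_abs]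
    rcases le_total (S x) (S y) with h | h
    · obtain ⟨e4, e5⟩ := e1 _ _ h
      rw [abs_sub_comm, abs_of_nonneg e4, abs_sub_comm, abs_of_nonneg (by linarith)]
      exact e5
    · obtain ⟨e4, e5⟩ := e1 _ _ h
      rw [abs_of_nonneg e4, abs_of_nonneg (by linarith)]
      exact e5
  have b4 : LocBdd s (fun (p : P) (y : ℂ) =>
      Complex.exp (Complex.I * (Λ p (S y) : ℂ)) - W p) p₀ y₀ :=
    LocBdd.of_cont (omega_cont hy₀ hS hW hΛ)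
  have l5 : LocLip s (fun (p : P) (_ : ℂ) => C p) p₀ y₀ := LocLip.of_const (c := C)
    fun _ _ => rfl
  exact ((l1.mul l2 b1 b2).add l5).add (l3.mul l4 b3 b4)

theorem ev_near {G : Type*} [SeminormedAddCommGroup G] {f : P × ℂ → G}
    (hf : ContinuousWithinAt f (s ×ˢ univ) (p₀, y₀)) {ε : ℝ} (hε : 0 < ε) :
    ∃ U ∈ 𝓝 y₀, ∀ᶠ p in 𝓝[s] p₀, ∀ y ∈ U, ‖f (p, y) - f (p₀, y₀)‖ ≤ ε := by
  have h : ∀ᶠ x in 𝓝[s ×ˢ univ] (p₀, y₀), ‖f x - f (p₀, y₀)‖ < ε := by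
    have := Metric.tendsto_nhds.mp hf ε hε
    filter_upwards [this] with x hx
    rwa [dist_eq_norm] at hx
  rw [nhdsWithin_prod_eq, nhdsWithin_univ, eventually_prod_iff] at h
  obtain ⟨pa, ha, pb, hb, hab⟩ := h
  exact ⟨{x | pb x}, hb, ha.mono fun t ht x hx => (hab ht hx).le⟩

/-- The derivative of the phase only matters where `e^{iΛ} = e^{iS}`. -/
theorem kink_ident (hcase : (∃ ε > 0, ∀ᶠ p in 𝓝[s] p₀, ∀ u, |u - S y₀| < ε →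
      Λ p u = Λ p (S y₀)) ∨
      Complex.exp (Complex.I * (Λ p₀ (S y₀) : ℂ)) = Complex.exp (Complex.I * (S y₀ : ℂ))) :
    ∃ η > 0, ∀ᶠ p in 𝓝[s] p₀, ∀ a z : ℝ, |a - S y₀| < η → |z| < η →
      Complex.I * Complex.exp (Complex.I * (Λ p₀ (S y₀) : ℂ)) *
        ((Λ p (a + z) - Λ p a : ℝ) : ℂ) =
      Complex.exp (Complex.I * (S y₀ : ℂ)) *
        (Complex.I * ((Λ p (a + z) - Λ p a : ℝ) : ℂ)) := by
  rcases hcase with ⟨ε, hε, h⟩ | h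
  · refine ⟨ε / 2, half_pos hε, ?_⟩
    filter_upwards [h] with p hp a z ha hz
    have e1 : Λ p (a + z) = Λ p (S y₀) := hp _ (by
      have e : a + z - S y₀ = (a - S y₀) + z := by ring
      rw [e]
      exact (abs_add_le _ _).trans_lt (by linarith))
    have e2 : Λ p a = Λ p (S y₀) := hp _ (by linarith)
    rw [e1, e2, sub_self]
    simp
  · refine ⟨1, one_pos, Eventually.of_forall fun p a z _ _ => ?_⟩
    rw [h]; ring

/-- The pointwise step, in terms of the function. -/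
theorem kink_point {r₀ ρ ε ε₂ ε₃ B' K L' : ℝ} {E₀ ω₀ L₀ : ℂ} {x z : ℝ} {c y : ℂ} {p : P}
    {δ₁ : ℝ} (hal : 0 < al)
    (hr₀ : 0 < r₀) (hρ0 : 0 < ρ) (hρ14 : ρ ≤ 1 / 4)
    (hL'0 : 0 < L') (hK0 : 0 < K) (hρ4 : 4 * L' * K * ρ = 1)
    (hε : ε = r₀ * ρ ^ 2 / 16) (hε₂ : ε₂ = ε / (4 * L' * r₀)) (hε₃ : ε₃ = ε / (2 * B'))
    (hB' : 0 < B') (hE : ‖E₀‖ = 1)
    (hx : x = ((starRingEnd ℂ) E₀ * c).re) (hz : z = ((starRingEnd ℂ) E₀ * c).im)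
    (hω : 0 ≤ (ω₀ * (starRingEnd ℂ) E₀).re) (hωK : ‖ω₀‖ ≤ K)
    (hc6 : ‖c‖ ≤ 1 / 6) (hn : ‖y‖ ≤ 3 / 2 * r₀)
    (hm : ∀ r r', 0 ≤ r → r ≤ r' → 0 ≤ m p r' - m p r ∧ m p r' - m p r ≤ L' * (r' - r))
    (hmB : ∀ r, 0 ≤ r → r ≤ 2 * r₀ → 0 ≤ m p r ∧ m p r ≤ B')
    (hmono : ∀ u v, u ≤ v → 0 ≤ Λ p v - Λ p u ∧ Λ p v - Λ p u ≤ v - u)
    (hSexp : ∀ ξ : ℂ, ‖ξ‖ ≤ δ₁ → S (Complex.exp ξ * y) = S y + al * ξ.im)
    (hcδ : (1 + 1 / al) * ‖c‖ ≤ δ₁)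
    (h1 : ‖Complex.exp (cols ((ρ ^ 2 : ℝ) : ℂ) Complex.I ((starRingEnd ℂ) E₀ * c)) *
        ((‖y‖ : ℂ) * Complex.exp (Complex.I * (S y : ℂ))) -
      ((‖y‖ : ℂ) * Complex.exp (Complex.I * (S y : ℂ)) +
        (r₀ : ℂ) * E₀ * cols ((ρ ^ 2 : ℝ) : ℂ) Complex.I ((starRingEnd ℂ) E₀ * c))‖ ≤ ε * ‖c‖)
    (h2 : ‖Complex.exp (Complex.I * (Λ p (S y) : ℂ)) - W p - ω₀‖ ≤ ε₂)
    (h3 : ‖Complex.exp (Complex.I * (Λ p (S y + z) : ℂ)) -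
      Complex.exp (Complex.I * (Λ p (S y) : ℂ)) -
      Complex.I * L₀ * ((Λ p (S y + z) - Λ p (S y) : ℝ) : ℂ)‖ ≤ (ε₃ + ε₃) * ‖c‖)
    (h5 : Complex.I * L₀ * ((Λ p (S y + z) - Λ p (S y) : ℝ) : ℂ) =
      E₀ * (Complex.I * ((Λ p (S y + z) - Λ p (S y) : ℝ) : ℂ))) :
    r₀ * ρ ^ 2 / 4 * ‖c‖ ^ 2 ≤ inner ℝ
      (kinkFn S C W m Λ p (Complex.exp (cols ((ρ ^ 2 : ℝ) : ℂ) (Complex.I / (al : ℂ))
        ((starRingEnd ℂ) E₀ * c)) * y) - kinkFn S C W m Λ p y) c ∧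
      ‖kinkFn S C W m Λ p (Complex.exp (cols ((ρ ^ 2 : ℝ) : ℂ) (Complex.I / (al : ℂ))
        ((starRingEnd ℂ) E₀ * c)) * y) - kinkFn S C W m Λ p y‖ ≤ (4 * r₀ + B') * ‖c‖ := by
  have hRn : ‖(starRingEnd ℂ) E₀ * c‖ = ‖c‖ := by
    rw [norm_mul, RCLike.norm_conj, hE, one_mul]
  have hρsq : ρ ^ 2 ≤ 1 := pow_le_one₀ hρ0.le (by linarith)
  have hxc : |x| ≤ ‖c‖ := by rw [← hRn, hx]; exact Complex.abs_re_le_norm _
  set ξ : ℂ := cols ((ρ ^ 2 : ℝ) : ℂ) (Complex.I / (al : ℂ)) ((starRingEnd ℂ) E₀ * c) with hξ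
  have hξe : ξ = (x : ℂ) * ((ρ ^ 2 : ℝ) : ℂ) + (z : ℂ) * (Complex.I / (al : ℂ)) := by
    rw [hξ, cols_apply, hx, hz]
  have hIal : Complex.I / (al : ℂ) = ((1 / al : ℝ) : ℂ) * Complex.I := by
    push_cast; ring
  have hξre : ξ.re = ρ ^ 2 * x := by
    rw [hξe, hIal]
    simp only [Complex.add_re, Complex.mul_re, Complex.ofReal_re, Complex.ofReal_im,
      Complex.I_re, Complex.I_im, Complex.mul_im]
    ring
  have hξim : al * ξ.im = z := by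
    rw [hξe, hIal]
    simp only [Complex.add_im, Complex.mul_im, Complex.ofReal_re, Complex.ofReal_im,
      Complex.I_re, Complex.I_im, Complex.mul_re]
    field_simp
    ring
  have hξn : ‖ξ‖ ≤ δ₁ := by
    refine ((norm_cols_le _ _ _).trans ?_).trans hcδ
    rw [hRn]
    refine mul_le_mul_of_nonneg_right ?_ (norm_nonneg _)
    have e1 : ‖((ρ ^ 2 : ℝ) : ℂ)‖ ≤ 1 := by
      rw [Complex.norm_real, Real.norm_eq_abs, abs_of_nonneg (by positivity)]; exact hρsq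
    have e2 : ‖Complex.I / (al : ℂ)‖ = 1 / al := by
      rw [norm_div, Complex.norm_I, Complex.norm_real, Real.norm_eq_abs, abs_of_pos hal]
    linarith
  have hSy : S (Complex.exp ξ * y) = S y + z := by rw [hSexp ξ hξn, hξim]
  have hny : ‖Complex.exp ξ * y‖ = Real.exp (ρ ^ 2 * x) * ‖y‖ := by
    rw [norm_mul, Complex.norm_exp, hξre]
  have hPt : ((‖Complex.exp ξ * y‖ : ℝ) : ℂ) * Complex.exp (Complex.I * ((S y + z : ℝ) : ℂ)) =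
      Complex.exp (cols ((ρ ^ 2 : ℝ) : ℂ) Complex.I ((starRingEnd ℂ) E₀ * c)) *
        ((‖y‖ : ℂ) * Complex.exp (Complex.I * (S y : ℂ))) := by
    rw [hny, cols_apply, ← hx, ← hz]
    push_cast
    have e1 : Complex.exp (Complex.I * ((S y : ℂ) + (z : ℂ))) =
        Complex.exp (Complex.I * (S y : ℂ)) * Complex.exp (Complex.I * (z : ℂ)) := by
      rw [← Complex.exp_add]; ring_nf
    have e2 : Complex.exp ((x : ℂ) * ((ρ : ℂ) ^ 2) + (z : ℂ) * Complex.I) =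
        Complex.exp ((ρ : ℂ) ^ 2 * (x : ℂ)) * Complex.exp (Complex.I * (z : ℂ)) := by
      rw [← Complex.exp_add]; ring_nf
    rw [e1, e2]; ring
  have hF' : kinkFn S C W m Λ p (Complex.exp ξ * y) =
      Complex.exp (cols ((ρ ^ 2 : ℝ) : ℂ) Complex.I ((starRingEnd ℂ) E₀ * c)) *
        ((‖y‖ : ℂ) * Complex.exp (Complex.I * (S y : ℂ))) + C p +
      (m p ‖Complex.exp ξ * y‖ : ℂ) *
        (Complex.exp (Complex.I * (Λ p (S y + z) : ℂ)) - W p) := by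
    rw [kinkFn, hSy, hPt]
  have hF : kinkFn S C W m Λ p y = ((‖y‖ : ℂ) * Complex.exp (Complex.I * (S y : ℂ))) + C p +
      (m p ‖y‖ : ℂ) * (Complex.exp (Complex.I * (Λ p (S y) : ℂ)) - W p) := rfl
  have hn'2 : ‖Complex.exp ξ * y‖ ≤ 2 * r₀ := by
    rw [hny]
    have e1 : ρ ^ 2 * x ≤ 1 / 6 := by
      have h : |ρ ^ 2 * x| ≤ 1 / 6 := by
        rw [abs_mul, abs_of_nonneg (by positivity)]
        calc ρ ^ 2 * |x| ≤ 1 * |x| := mul_le_mul_of_nonneg_right hρsq (abs_nonneg _)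
          _ ≤ 1 / 6 := by rw [one_mul]; exact hxc.trans hc6
      exact (le_abs_self _).trans h
    have e2 : Real.exp (ρ ^ 2 * x) ≤ 4 / 3 := by
      have h := Real.abs_exp_sub_one_le (x := 1 / 6) (by norm_num)
      have h' := (abs_le.mp h).2
      have : Real.exp (ρ ^ 2 * x) ≤ Real.exp (1 / 6) := Real.exp_le_exp.mpr e1
      norm_num at h'
      linarith
    calc Real.exp (ρ ^ 2 * x) * ‖y‖ ≤ 4 / 3 * (3 / 2 * r₀) :=
          mul_le_mul e2 hn (norm_nonneg _) (by norm_num)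
      _ = 2 * r₀ := by ring
  obtain ⟨e1, e2⟩ := hmB _ (norm_nonneg _) hn'2
  have hdL : |Λ p (S y + z) - Λ p (S y)| ≤ |z| ∧ 0 ≤ (Λ p (S y + z) - Λ p (S y)) * z := by
    rcases le_total 0 z with h | h
    · obtain ⟨e4, e5⟩ := hmono (S y) (S y + z) (by linarith)
      rw [abs_of_nonneg e4, abs_of_nonneg h]
      exact ⟨by linarith, mul_nonneg e4 h⟩
    · obtain ⟨e4, e5⟩ := hmono (S y + z) (S y) (by linarith)
      rw [abs_of_nonpos (by linarith), abs_of_nonpos h]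
      exact ⟨by linarith, mul_nonneg_of_nonpos_of_nonpos (by linarith) h⟩
  rw [hF', hF]
  exact kink_step hr₀ hρ0 hρ14 hL'0 hK0 hρ4 hε hε₂ hε₃ hB' hE hx hz hω hωK hc6
    (norm_nonneg y) hn hny (fun r r' hr hrr => ⟨fun h => by
      rw [← h.1, ← h.2]; exact hm r r' hr hrr, fun h => by
      rw [← h.1, ← h.2]; exact hm r r' hr hrr⟩) e1 e2 hdL.1 hdL.2 h1 h2 h3 h5

/-- **Kink lemma.** -/
theorem RegAt.of_kink (hy₀ : y₀ ≠ 0) (hal : 0 < al) (hS : AngLift S al y₀)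
    (hm : ∀ᶠ p in 𝓝[s] p₀, ∀ r r', 0 ≤ r → r ≤ r' →
      0 ≤ m p r' - m p r ∧ m p r' - m p r ≤ L * (r' - r))
    (hm0 : ∀ᶠ p in 𝓝[s] p₀, 0 ≤ m p 0 ∧ m p 0 ≤ B)
    (hW : ContinuousWithinAt W s p₀)
    (hΛ : ContinuousWithinAt (fun x : P × ℝ => Λ x.1 x.2) (s ×ˢ univ) (p₀, S y₀))
    (hmono : ∀ᶠ p in 𝓝[s] p₀, ∀ u v, u ≤ v → 0 ≤ Λ p v - Λ p u ∧ Λ p v - Λ p u ≤ v - u)
    (hcase : (∃ ε > 0, ∀ᶠ p in 𝓝[s] p₀, ∀ u, |u - S y₀| < ε → Λ p u = Λ p (S y₀)) ∨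
      Complex.exp (Complex.I * (Λ p₀ (S y₀) : ℂ)) = Complex.exp (Complex.I * (S y₀ : ℂ)))
    (hre : 0 ≤ ((Complex.exp (Complex.I * (Λ p₀ (S y₀) : ℂ)) - W p₀) *
      (starRingEnd ℂ) (Complex.exp (Complex.I * (S y₀ : ℂ)))).re) :
    RegAt s (kinkFn S C W m Λ) p₀ y₀ := by
  have hr₀0 : 0 < ‖y₀‖ := norm_pos_iff.mpr hy₀
  set r₀ : ℝ := ‖y₀‖ with hr₀
  set E₀ : ℂ := Complex.exp (Complex.I * (S y₀ : ℂ)) with hE₀
  have hE : ‖E₀‖ = 1 := norm_expI _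
  set L₀ : ℂ := Complex.exp (Complex.I * (Λ p₀ (S y₀) : ℂ)) with hL₀
  set ω₀ : ℂ := L₀ - W p₀ with hω₀
  set K : ℝ := ‖ω₀‖ + 1 with hK
  set L' : ℝ := |L| + 1 with hL'
  set B' : ℝ := |B| + (|L| + 1) * (2 * r₀) + 1 with hB'
  have hK0 : 0 < K := by positivity
  have hK1 : 1 ≤ K := by rw [hK]; linarith [norm_nonneg ω₀]
  have hL'0 : 0 < L' := by positivity
  have hL'1 : 1 ≤ L' := by rw [hL']; linarith [abs_nonneg L]
  have hB'0 : 0 < B' := by positivity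
  set ρ : ℝ := 1 / (4 * L' * K) with hρ
  have hρ0 : 0 < ρ := by positivity
  have hρ4 : 4 * L' * K * ρ = 1 := by rw [hρ]; field_simp
  have hρ14 : ρ ≤ 1 / 4 := by
    rw [hρ]
    refine one_div_le_one_div_of_le (by norm_num) ?_
    nlinarith [mul_le_mul hL'1 hK1 zero_le_one hL'0.le]
  set ε : ℝ := r₀ * ρ ^ 2 / 16 with hε
  have hε0 : 0 < ε := by positivity
  set ε₂ : ℝ := ε / (4 * L' * r₀) with hε₂
  have hε₂0 : 0 < ε₂ := by positivity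
  set ε₃ : ℝ := ε / (2 * B') with hε₃
  have hε₃0 : 0 < ε₃ := by positivity
  have hRn : ∀ c : ℂ, ‖(starRingEnd ℂ) E₀ * c‖ = ‖c‖ := by
    intro c; rw [norm_mul, RCLike.norm_conj, hE, one_mul]
  -- the plot
  set R : ℂ →L[ℝ] ℂ := ContinuousLinearMap.mul ℝ ℂ ((starRingEnd ℂ) E₀) with hR
  set D : ℂ →L[ℝ] ℂ := cols ((ρ ^ 2 : ℝ) : ℂ) (Complex.I / (al : ℂ)) with hD
  have hpl : IsPlot (fun (c : ℂ) (y : ℂ) => Complex.exp (D (R c)) * y)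
      ((ContinuousLinearMap.mul ℝ ℂ y₀).comp (D.comp R)) y₀ := by
    intro e he
    obtain ⟨U, hU, δ, hδ, h⟩ := exp_mul_est (a₁ := ((ρ ^ 2 : ℝ) : ℂ))
      (a₂ := Complex.I / (al : ℂ)) (y₀ := y₀) he
    refine ⟨U, hU, δ, hδ, fun y hy c hc => ?_⟩
    have e1 := h y hy (R c) (by rw [hR]; exact (hRn c).le.trans hc)
    have e2 : ‖R c‖ = ‖c‖ := hRn c
    rw [e2] at e1
    exact e1
  -- neighbourhoods
  obtain ⟨U1, hU1, δ1, hδ1, h1⟩ := hS.exp hy₀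
  obtain ⟨U2', hU2', δ2, hδ2, h2'⟩ := exp_mul_est (a₁ := ((ρ ^ 2 : ℝ) : ℂ)) (a₂ := Complex.I)
    (y₀ := (r₀ : ℂ) * E₀) hε0
  have hcP : ContinuousAt (fun y : ℂ => (‖y‖ : ℂ) * Complex.exp (Complex.I * (S y : ℂ))) y₀ := by
    refine ContinuousAt.mul (Complex.continuous_ofReal.comp continuous_norm).continuousAt ?_
    exact Complex.continuous_exp.continuousAt.comp (continuousAt_const.mul
      (Complex.continuous_ofReal.continuousAt.comp (hS.continuousAt hy₀)))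
  have hU2 := hcP.preimage_mem_nhds (t := U2') hU2'
  obtain ⟨U3, hU3, h3⟩ := ev_near (omega_cont hy₀ hS hW hΛ) hε₂0
  obtain ⟨U4, hU4, h4⟩ := ev_near (phase_cont hy₀ hS hΛ) hε₃0
  obtain ⟨η, hη, h5⟩ := kink_ident hcase
  have hU5 : ∀ᶠ y in 𝓝 y₀, |S y - S y₀| < η := by
    have := Metric.tendsto_nhds.mp (hS.continuousAt hy₀) η hη
    filter_upwards [this] with y hy
    rwa [Real.dist_eq] at hy
  have hU6 : Metric.ball y₀ (r₀ / 2) ∈ 𝓝 y₀ := Metric.ball_mem_nhds _ (half_pos hr₀0)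
  set δ : ℝ := min (min δ1 δ2) (min (η / 2) (min (1 / 6) ε₃)) / (1 + 1 / al) with hδ
  have hal1 : 0 < 1 + 1 / al := by positivity
  have hal2 : 1 ≤ 1 + 1 / al := by
    have : 0 < 1 / al := by positivity
    linarith
  have hδ0 : 0 < δ := by positivity
  refine RegAt.of_plot (κ := r₀ * ρ ^ 2 / 4) (Λ := 4 * r₀ + B') (by positivity) hpl
    (kink_locLip hy₀ hS hm hm0 hW hΛ hmono)
    ⟨U1 ∩ ((fun y : ℂ => (‖y‖ : ℂ) * Complex.exp (Complex.I * (S y : ℂ))) ⁻¹' U2') ∩ U3 ∩ U4 ∩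
      {y | |S y - S y₀| < η} ∩ Metric.ball y₀ (r₀ / 2),
      inter_mem (inter_mem (inter_mem (inter_mem (inter_mem hU1 hU2) hU3) hU4) hU5) hU6,
      δ, hδ0, ?_⟩
  filter_upwards [amp_lip hm, amp_bdd hm hm0 r₀, hmono, h3, h4, h5]
    with p q1 q2 q3 q4 q5 q6 y hy c hc
  obtain ⟨⟨⟨⟨⟨y1, y2⟩, y3⟩, y4⟩, y5⟩, y6⟩ := hy
  have hcm : (1 + 1 / al) * ‖c‖ ≤ min (min δ1 δ2) (min (η / 2) (min (1 / 6) ε₃)) := by
    rw [hδ, le_div_iff₀ hal1] at hc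
    rw [mul_comm]; exact hc
  have hcm' : ‖c‖ ≤ min (min δ1 δ2) (min (η / 2) (min (1 / 6) ε₃)) := by
    refine le_trans ?_ hcm
    nlinarith [norm_nonneg c]
  have hc1 := hcm.trans ((min_le_left _ _).trans (min_le_left _ _))
  have hc2 := hcm'.trans ((min_le_left _ _).trans (min_le_right _ _))
  have hc3 := hcm'.trans ((min_le_right _ _).trans (min_le_left _ _))
  have hc4 := hcm'.trans ((min_le_right _ _).trans ((min_le_right _ _).trans (min_le_left _ _)))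
  have hc5 := hcm'.trans ((min_le_right _ _).trans ((min_le_right _ _).trans (min_le_right _ _)))
  set z : ℝ := ((starRingEnd ℂ) E₀ * c).im with hz
  have hzc : |z| ≤ ‖c‖ := by rw [← hRn c]; exact Complex.abs_im_le_norm _
  have hny : ‖y‖ ≤ 3 / 2 * r₀ := by
    rw [Metric.mem_ball, dist_eq_norm] at y6
    have e : ‖y‖ ≤ ‖y₀‖ + ‖y - y₀‖ := by
      have e : y = y₀ + (y - y₀) := by ring
      calc ‖y‖ = ‖y₀ + (y - y₀)‖ := by rw [← e]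
        _ ≤ _ := norm_add_le _ _
    linarith
  have hdz : |Λ p (S y + z) - Λ p (S y)| ≤ |z| := by
    rcases le_total 0 z with h | h
    · obtain ⟨e4, e5⟩ := q3 (S y) (S y + z) (by linarith)
      rw [abs_of_nonneg e4, abs_of_nonneg h]
      linarith
    · obtain ⟨e4, e5⟩ := q3 (S y + z) (S y) (by linarith)
      rw [abs_of_nonpos (by linarith), abs_of_nonpos h]
      linarith
  have hm1 : ‖Complex.exp (Complex.I * (Λ p (S y + z) : ℂ)) -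
      Complex.exp (Complex.I * (Λ p (S y) : ℂ)) -
      Complex.I * L₀ * ((Λ p (S y + z) - Λ p (S y) : ℝ) : ℂ)‖ ≤ (ε₃ + ε₃) * ‖c‖ := by
    have e1 := expI_est (Λ p (S y)) (Λ p (S y + z)) (Λ p₀ (S y₀))
      (hdz.trans (hzc.trans (by linarith)))
    refine e1.trans ?_
    have e2 : |Λ p (S y) - Λ p₀ (S y₀)| ≤ ε₃ := q5 y y4
    exact mul_le_mul (add_le_add e2 (hdz.trans (hzc.trans hc5))) (hdz.trans hzc)
      (abs_nonneg _) (by positivity)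
  exact kink_point (δ₁ := δ1) hal hr₀0 hρ0 hρ14 hL'0 hK0 hρ4 hε hε₂ hε₃ hB'0 hE rfl hz hre
    (by rw [hK]; linarith) hc4 hny q1 q2 q3 (fun ξ hξ => h1 y y1 ξ hξ) hc1
    (h2' _ y2 _ (by rw [hRn]; exact hc2) |>.trans (by rw [hRn])) (q4 y y3) hm1
    (q6 (S y) z y5 ((hzc.trans hc3).trans_lt (by linarith)))

end Main

end Vale.Agent.P268.T
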