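import Vale.Agent.P268.T.H594.Kink

/-!
# P268, topological half: the kink lemma for the window phase
-/

set_option linter.unusedSectionVars false

namespace Vale.Agent.P268.T

open Set Filter Topology

/-- The window phase: `R` is `(2a+1)π` and `w` is `2aπ`. -/
noncomputable def kLam (R w S V : ℝ) : ℝ :=
  min (max (V - 2 * Real.pi) (min S (min V R))) (S + w)

theorem kLam_mono {R w S S' V : ℝ} (h : S ≤ S') :
    0 ≤ kLam R w S' V - kLam R w S V ∧ kLam R w S' V - kLam R w S V ≤ S' - S := by
  unfold kLam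
  constructor
  · have h1 : min S (min V R) ≤ min S' (min V R) := min_le_min_right _ h
    have h2 : max (V - 2 * Real.pi) (min S (min V R)) ≤
        max (V - 2 * Real.pi) (min S' (min V R)) := max_le_max_left _ h1
    have h3 := min_le_min h2 (add_le_add_left h w)
    simpa using sub_nonneg.mpr h3
  · have h1 : min S' (min V R) ≤ min S (min V R) + (S' - S) := by
      rcases le_total S (min V R) with e | e
      · rw [min_eq_left e]; linarith [min_le_left S' (min V R)]
      · rw [min_eq_right e]; linarith [min_le_right S' (min V R)]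
    have h2 : max (V - 2 * Real.pi) (min S' (min V R)) ≤
        max (V - 2 * Real.pi) (min S (min V R)) + (S' - S) := by
      refine max_le ?_ ?_
      · linarith [le_max_left (V - 2 * Real.pi) (min S (min V R))]
      · linarith [le_max_right (V - 2 * Real.pi) (min S (min V R))]
    rcases le_total (max (V - 2 * Real.pi) (min S (min V R))) (S + w) with e | e
    · rw [min_eq_left e]
      linarith [min_le_left (max (V - 2 * Real.pi) (min S' (min V R))) (S' + w)]
    · rw [min_eq_right e]
      linarith [min_le_right (max (V - 2 * Real.pi) (min S' (min V R))) (S' + w)]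

theorem continuous_kLam (R w : ℝ) : Continuous fun x : ℝ × ℝ => kLam R w x.1 x.2 := by
  unfold kLam
  fun_prop

/-- Everywhere `Λ ∈ {S, S + w}`, or `Λ` is locally independent of `S`. -/
theorem kLam_case (R w S₀ V₀ : ℝ) :
    (∃ ε > 0, ∀ V, |V - V₀| < ε → ∀ u, |u - S₀| < ε → kLam R w u V = kLam R w S₀ V) ∨
      kLam R w S₀ V₀ = S₀ ∨ kLam R w S₀ V₀ = S₀ + w := by
  by_cases h1 : kLam R w S₀ V₀ = S₀ + w
  · exact Or.inr (Or.inr h1)
  by_cases h2 : kLam R w S₀ V₀ = S₀
  · exact Or.inr (Or.inl h2)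
  refine Or.inl ?_
  have h3 : max (V₀ - 2 * Real.pi) (min S₀ (min V₀ R)) < S₀ + w := by
    by_contra h
    exact h1 (min_eq_right (not_lt.mp h))
  have h4 : kLam R w S₀ V₀ = max (V₀ - 2 * Real.pi) (min S₀ (min V₀ R)) := min_eq_left h3.le
  rw [h4] at h2
  have c1 : Continuous fun x : ℝ × ℝ =>
      max (x.2 - 2 * Real.pi) (min x.1 (min x.2 R)) := by fun_prop
  have c2 : Continuous fun x : ℝ × ℝ => x.1 + w := by fun_prop
  have n3 : ∀ᶠ x : ℝ × ℝ in 𝓝 (S₀, V₀),
      max (x.2 - 2 * Real.pi) (min x.1 (min x.2 R)) < x.1 + w :=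
    c1.continuousAt.eventually_lt c2.continuousAt h3
  have key : ∃ f : ℝ → ℝ, ∀ᶠ x : ℝ × ℝ in 𝓝 (S₀, V₀),
      max (x.2 - 2 * Real.pi) (min x.1 (min x.2 R)) = f x.2 := by
    rcases lt_or_ge (min V₀ R) S₀ with h5 | h5
    · refine ⟨fun V => max (V - 2 * Real.pi) (min V R), ?_⟩
      have c3 : Continuous fun x : ℝ × ℝ => min x.2 R := by fun_prop
      filter_upwards [c3.continuousAt.eventually_lt (x₀ := (S₀, V₀))
        continuous_fst.continuousAt h5] with x hx
      rw [min_eq_right hx.le]
    · rw [min_eq_left h5] at h2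
      have h6 : S₀ < V₀ - 2 * Real.pi := by
        by_contra h
        exact h2 (max_eq_right (not_lt.mp h))
      refine ⟨fun V => V - 2 * Real.pi, ?_⟩
      have c3 : Continuous fun x : ℝ × ℝ => x.2 - 2 * Real.pi := by fun_prop
      filter_upwards [continuous_fst.continuousAt.eventually_lt (x₀ := (S₀, V₀))
        c3.continuousAt h6] with x hx
      exact max_eq_left ((min_le_left _ _).trans hx.le)
  obtain ⟨f, hf⟩ := key
  obtain ⟨ε, hε, hb⟩ := Metric.eventually_nhds_iff.mp (n3.and hf)
  refine ⟨ε, hε, fun V hV u hu => ?_⟩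
  have q1 := hb (y := (u, V)) (by
    rw [Prod.dist_eq, max_lt_iff, Real.dist_eq, Real.dist_eq]; exact ⟨hu, hV⟩)
  have q2 := hb (y := (S₀, V)) (by
    rw [Prod.dist_eq, max_lt_iff, Real.dist_eq, Real.dist_eq]
    exact ⟨by simpa using hε, hV⟩)
  unfold kLam
  rw [min_eq_left q1.1.le, min_eq_left q2.1.le]
  exact q1.2.trans q2.2.symm

theorem exp_I_add_of {a w : ℝ} (hw : Complex.exp (Complex.I * (w : ℂ)) = 1) :
    Complex.exp (Complex.I * ((a + w : ℝ) : ℂ)) = Complex.exp (Complex.I * (a : ℂ)) := by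
  push_cast
  rw [mul_add, Complex.exp_add, hw, mul_one]

theorem exp_I_sub_two_pi (a : ℝ) :
    Complex.exp (Complex.I * ((a - 2 * Real.pi : ℝ) : ℂ)) = Complex.exp (Complex.I * (a : ℂ)) := by
  push_cast
  rw [mul_sub, Complex.exp_sub]
  have : Complex.exp (Complex.I * (2 * (Real.pi : ℂ))) = 1 := by
    rw [mul_comm]; exact Complex.exp_two_pi_mul_I
  rw [this, div_one]

/-- The sign condition of the kink lemma. -/
theorem kLam_re {R w S₀ V₀ : ℝ} (hw : Complex.exp (Complex.I * (w : ℂ)) = 1)
    (h : S₀ ≤ R ∨ V₀ ≤ R) :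
    0 ≤ ((Complex.exp (Complex.I * (kLam R w S₀ V₀ : ℂ)) - Complex.exp (Complex.I * (V₀ : ℂ))) *
      (starRingEnd ℂ) (Complex.exp (Complex.I * (S₀ : ℂ)))).re := by
  have hval : Complex.exp (Complex.I * (kLam R w S₀ V₀ : ℂ)) =
      Complex.exp (Complex.I * (S₀ : ℂ)) ∨
      Complex.exp (Complex.I * (kLam R w S₀ V₀ : ℂ)) = Complex.exp (Complex.I * (V₀ : ℂ)) := by
    unfold kLam
    rcases min_choice (max (V₀ - 2 * Real.pi) (min S₀ (min V₀ R))) (S₀ + w) with e | e
    · rw [e]
      rcases max_choice (V₀ - 2 * Real.pi) (min S₀ (min V₀ R)) with e | e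
      · rw [e]; exact Or.inr (exp_I_sub_two_pi V₀)
      · rw [e]
        rcases h with h | h
        · rcases min_choice S₀ (min V₀ R) with e1 | e1
          · rw [e1]; exact Or.inl rfl
          · rw [e1]
            rcases min_choice V₀ R with e2 | e2
            · rw [e2]; exact Or.inr rfl
            · have h3 : min S₀ (min V₀ R) = S₀ := by
                rw [e1, e2]
                have := min_le_left S₀ (min V₀ R)
                rw [e1, e2] at this
                exact le_antisymm this h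
              rw [← e1, h3]; exact Or.inl rfl
        · rw [min_eq_left h]
          rcases min_choice S₀ V₀ with e1 | e1
          · rw [e1]; exact Or.inl rfl
          · rw [e1]; exact Or.inr rfl
    · rw [e, exp_I_add_of hw]; exact Or.inl rfl
  rcases hval with e | e
  · rw [e, sub_mul, Complex.mul_conj, Complex.normSq_eq_norm_sq, norm_expI]
    rw [Complex.sub_re]
    have h1 : (Complex.exp (Complex.I * (V₀ : ℂ)) *
        (starRingEnd ℂ) (Complex.exp (Complex.I * (S₀ : ℂ)))).re ≤ 1 := by
      refine (Complex.re_le_norm _).trans ?_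
      rw [norm_mul, RCLike.norm_conj, norm_expI, norm_expI, mul_one]
    have h2 : (((1 ^ 2 : ℝ) : ℂ)).re = 1 := by
      rw [Complex.ofReal_re]; norm_num
    rw [h2]; linarith
  · rw [e, sub_self, zero_mul, Complex.zero_re]

section Main

variable {P : Type*} [TopologicalSpace P] {s : Set P} {p₀ : P} {y₀ : ℂ} {S : ℂ → ℝ} {al : ℝ}
  {C : P → ℂ} {V lam q : P → ℝ} {R w : ℝ}

/-- The level function of route V in the `y`-variable. -/
noncomputable def kinkLam (R w : ℝ) (S : ℂ → ℝ) (C : P → ℂ) (V lam q : P → ℝ) (p : P)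
    (y : ℂ) : ℂ :=
  (‖y‖ : ℂ) * Complex.exp (Complex.I * (S y : ℂ)) + C p +
    ((min (lam p * ‖y‖) (q p) : ℝ) : ℂ) *
      (Complex.exp (Complex.I * (kLam R w (S y) (V p) : ℂ)) -
        Complex.exp (Complex.I * (V p : ℂ)))

/-- **Kink lemma for the window phase.** -/
theorem RegAt.of_kinkLam (hy₀ : y₀ ≠ 0) (hal : 0 < al) (hS : AngLift S al y₀)
    (hw : Complex.exp (Complex.I * (w : ℂ)) = 1)
    (hlam : ContinuousWithinAt lam s p₀) (hlam0 : ∀ᶠ p in 𝓝[s] p₀, 0 ≤ lam p)
    (hq : ∀ᶠ p in 𝓝[s] p₀, 0 ≤ q p) (hV : ContinuousWithinAt V s p₀)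
    (h : S y₀ ≤ R ∨ V p₀ ≤ R) :
    RegAt s (kinkLam R w S C V lam q) p₀ y₀ := by
  have hcL : Continuous fun x : ℝ × ℝ => kLam R w x.1 x.2 := continuous_kLam R w
  have hW : ContinuousWithinAt (fun p => Complex.exp (Complex.I * (V p : ℂ))) s p₀ :=
    Complex.continuous_exp.continuousAt.comp_continuousWithinAt
      (continuousWithinAt_const.mul
        (Complex.continuous_ofReal.continuousAt.comp_continuousWithinAt hV))
  have hV' : ContinuousWithinAt (fun x : P × ℝ => V x.1) (s ×ˢ univ) (p₀, S y₀) :=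
    ContinuousWithinAt.comp (t := s) (g := V) (f := Prod.fst) hV continuousWithinAt_fst
      (fun x hx => hx.1)
  refine RegAt.of_kink (S := S) (C := C) (W := fun p => Complex.exp (Complex.I * (V p : ℂ)))
    (m := fun p r => min (lam p * r) (q p)) (Λ := fun p u => kLam R w u (V p))
    (L := lam p₀ + 1) (B := 0) hy₀ hal hS ?_ ?_ hW ?_ ?_ ?_ (kLam_re hw h)
  · have h1 : ∀ᶠ p in 𝓝[s] p₀, lam p ≤ lam p₀ + 1 := by
      have := hlam.eventually (ge_mem_nhds (lt_add_one (lam p₀)))
      exact this
    filter_upwards [h1, hlam0] with p e1 e2 r r' hr hrr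
    have e3 : lam p * r ≤ lam p * r' := mul_le_mul_of_nonneg_left hrr e2
    have e4 : lam p * r' - lam p * r ≤ (lam p₀ + 1) * (r' - r) := by
      rw [← mul_sub]
      exact mul_le_mul_of_nonneg_right e1 (by linarith)
    constructor
    · exact sub_nonneg.mpr (min_le_min_right _ e3)
    · rcases le_total (lam p * r) (q p) with e | e
      · rw [min_eq_left e]
        linarith [min_le_left (lam p * r') (q p)]
      · rw [min_eq_right e, min_eq_right (e.trans e3), sub_self]
        linarith
  · filter_upwards [hq] with p hp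
    rw [mul_zero, min_eq_left hp]
    exact ⟨le_rfl, le_rfl⟩
  · exact hcL.continuousAt.comp_continuousWithinAt (continuousWithinAt_snd.prodMk hV')
  · exact Eventually.of_forall fun p u v huv => kLam_mono huv
  · rcases kLam_case R w (S y₀) (V p₀) with ⟨ε, hε, e⟩ | e | e
    · refine Or.inl ⟨ε, hε, ?_⟩
      have := Metric.tendsto_nhds.mp hV ε hε
      filter_upwards [this] with p hp u hu
      exact e (V p) (by rwa [Real.dist_eq] at hp) u hu
    · exact Or.inr (by rw [e])
    · exact Or.inr (by rw [e, exp_I_add_of hw])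

end Main

end Vale.Agent.P268.T
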