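import Vale.Agent.P268.T.H594.KinkLam
import Vale.Agent.P268.T.H128.PolarLip

/-!
# P268, topological half: the kink lemma for the frozen profiles
-/

set_option linter.unusedSectionVars false

namespace Vale.Agent.P268.T.RV

open Set Filter Topology

/-- The profile in the `k`-th turn. -/
theorem prof_turn' {T k : ℕ} {θ : ℝ} (hk : k < T) (h1 : 2 * (k : ℝ) + 1 ≤ xc T θ)
    (h2 : xc T θ ≤ 2 * k + 2) : prof T θ = Real.pi + 2 * Real.pi * (xc T θ - k - 1) := by
  rw [prof_eq_turn hk h1 h2]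
  ring

theorem arg_mem_of_pos {T k : ℕ} {y₀ : ℂ} (hk : k < T) (_ : 2 * (k : ℝ) + 1 < pos T y₀)
    (h2 : pos T y₀ < 2 * k + 2) : -Real.pi < Complex.arg y₀ ∧ Complex.arg y₀ < Real.pi := by
  refine ⟨Complex.neg_pi_lt_arg _, ?_⟩
  unfold pos xc at h2
  have hpi := Real.pi_pos
  have hk' : (k : ℝ) + 1 ≤ T := by exact_mod_cast hk
  rw [div_lt_iff₀ (by positivity)] at h2
  have hT : (0 : ℝ) < 2 * T + 1 := by positivity
  by_contra h
  rw [not_lt] at h
  have h3 : (2 * Real.pi) * (2 * T + 1) ≤ (Complex.arg y₀ + Real.pi) * (2 * T + 1) :=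
    mul_le_mul_of_nonneg_right (by linarith) hT.le
  nlinarith

theorem eventually_arg_eq {y₀ : ℂ} (hy₀ : y₀ ≠ 0) (h : Complex.arg y₀ < Real.pi) :
    ∀ᶠ y in 𝓝 y₀, Complex.arg y = Complex.arg y₀ + Complex.arg (y / y₀) := by
  have h0 := Complex.neg_pi_lt_arg y₀
  have hε : 0 < min (Real.pi - Complex.arg y₀) (Complex.arg y₀ + Real.pi) :=
    lt_min (by linarith) (by linarith)
  filter_upwards [eventually_arg_small hy₀ hε, eventually_ne_nhds hy₀] with y hy hy0
  obtain ⟨h1, h2⟩ := abs_lt.mp hy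
  have e : y = y₀ * (y / y₀) := by field_simp
  have h3 := min_le_left (Real.pi - Complex.arg y₀) (Complex.arg y₀ + Real.pi)
  have h4 := min_le_right (Real.pi - Complex.arg y₀) (Complex.arg y₀ + Real.pi)
  conv_lhs => rw [e]
  exact Complex.arg_mul hy₀ (div_ne_zero hy0 hy₀) ⟨by linarith, by linarith⟩

/-- In an open turn the phase `Sph T` is an angle lift of speed `2T + 1`. -/
theorem angLift_Sph {T k : ℕ} {y₀ : ℂ} (hy₀ : y₀ ≠ 0) (hk : k < T)
    (h1 : 2 * (k : ℝ) + 1 < pos T y₀) (h2 : pos T y₀ < 2 * k + 2) :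
    AngLift (Sph T) (2 * T + 1) y₀ := by
  obtain ⟨-, hpi⟩ := arg_mem_of_pos hk h1 h2
  have hc : ContinuousAt (pos T) y₀ := by
    unfold pos xc
    refine ContinuousAt.div_const (ContinuousAt.mul_const
      (ContinuousAt.add_const (Complex.continuousAt_arg ?_) _) _) _
    rw [Complex.mem_slitPlane_iff_arg]
    exact ⟨hpi.ne, hy₀⟩
  filter_upwards [eventually_arg_eq hy₀ hpi, hc.eventually (lt_mem_nhds h1),
    hc.eventually (gt_mem_nhds h2)] with y e1 e2 e3
  unfold Sph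
  rw [prof_turn' hk (le_of_lt e2) (le_of_lt e3), prof_turn' hk (le_of_lt h1) (le_of_lt h2)]
  unfold xc
  rw [e1]
  have := Real.pi_ne_zero
  field_simp
  ring

theorem Sph_le {T k a : ℕ} {y₀ : ℂ} (hk : k < T) (hka : k ≤ a)
    (h1 : 2 * (k : ℝ) + 1 < pos T y₀) (h2 : pos T y₀ < 2 * k + 2) :
    Sph T y₀ ≤ (2 * a + 1) * Real.pi := by
  unfold Sph
  have h3 : xc T (Complex.arg y₀) < 2 * k + 2 := h2
  rw [prof_turn' hk (le_of_lt h1) h3.le]
  have hpi := Real.pi_pos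
  have hka' : (k : ℝ) ≤ a := by exact_mod_cast hka
  nlinarith

theorem Lam_eq_kLam (a : ℕ) (S V : ℝ) :
    Lam a S V = kLam ((2 * a + 1) * Real.pi) (2 * a * Real.pi) S V := rfl

theorem eI_two_a_pi (a : ℕ) :
    Complex.exp (Complex.I * ((2 * a * Real.pi : ℝ) : ℂ)) = 1 := by
  have := Complex.exp_nat_mul_two_pi_mul_I a
  rw [← this]
  congr 1
  push_cast
  ring

theorem eI_odd_pi (a : ℕ) : eI ((2 * a + 3) * Real.pi) = eI Real.pi := by
  unfold eI
  have h := exp_I_add_of (a := Real.pi) (eI_two_a_pi (a + 1))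
  rw [← h]
  congr 2
  push_cast
  ring

/-- At the cut of `z` the two values of the window phase agree. -/
theorem Lam_cut {a : ℕ} {S : ℝ} (h : -Real.pi ≤ S) :
    eI (Lam a S ((2 * a + 3) * Real.pi)) = eI (Lam a S Real.pi) := by
  have hpi := Real.pi_pos
  have ha : (0 : ℝ) ≤ a := by positivity
  have e1 : Lam a S Real.pi = min S Real.pi := by
    unfold Lam
    rw [min_eq_left (by nlinarith : Real.pi ≤ (2 * a + 1) * Real.pi),
      max_eq_right (le_min (by linarith) (by linarith)), min_eq_left]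
    have := min_le_left S Real.pi
    have : 0 ≤ 2 * (a : ℝ) * Real.pi := by positivity
    linarith
  have e2 : Lam a S ((2 * a + 3) * Real.pi) = min S Real.pi + 2 * a * Real.pi := by
    unfold Lam
    rw [min_eq_right (by nlinarith : (2 * a + 1) * Real.pi ≤ (2 * a + 3) * Real.pi)]
    have e3 : (2 * (a : ℝ) + 3) * Real.pi - 2 * Real.pi = (2 * a + 1) * Real.pi := by ring
    rw [e3, max_eq_left (min_le_right _ _), ← min_add_add_right, min_comm]
    congr 1
    ring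
  rw [e1, e2]
  exact exp_I_add_of (eI_two_a_pi a)

theorem neg_pi_le_Sph (T : ℕ) (y : ℂ) : -Real.pi ≤ Sph T y := by
  unfold Sph prof
  have h : 0 ≤ ∑ k ∈ Finset.range T, clamp01 (xc T (Complex.arg y) - (2 * k + 1)) :=
    Finset.sum_nonneg fun k _ => le_max_left _ _
  have := Real.pi_pos
  nlinarith

/-- **Kink lemma**, for the frozen profiles: `y₀` in the open turn `k ≤ a`. -/
theorem kink_turn {P : Type*} [TopologicalSpace P] {s : Set P} {p₀ : P} {y₀ : ℂ} {T a k : ℕ}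
    {C : P → ℂ} {ζ V lam q : P → ℝ} (hy₀ : y₀ ≠ 0) (hk : k < T) (hka : k ≤ a)
    (h1 : 2 * (k : ℝ) + 1 < pos T y₀) (h2 : pos T y₀ < 2 * k + 2)
    (hlam : ContinuousWithinAt lam s p₀) (hlam0 : ∀ᶠ p in 𝓝[s] p₀, 0 ≤ lam p)
    (hq : ∀ᶠ p in 𝓝[s] p₀, 0 ≤ q p)
    (hV : ContinuousWithinAt V s p₀ ∨
      ∀ᶠ p in 𝓝[s] p₀, V p = Real.pi ∨ V p = (2 * a + 3) * Real.pi) :
    RegAt s (fun p y => C p + (((‖y‖ : ℝ) : ℂ) * eI (Sph T y) +
      (((ζ p - min (lam p * ‖y‖) (q p) : ℝ) : ℂ) * eI (V p) +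
        ((min (lam p * ‖y‖) (q p) : ℝ) : ℂ) * eI (Lam a (Sph T y) (V p))))) p₀ y₀ := by
  have hal : (0 : ℝ) < 2 * T + 1 := by positivity
  have main : ∀ V' : P → ℝ, ContinuousWithinAt V' s p₀ →
      RegAt s (fun p y => C p + (((‖y‖ : ℝ) : ℂ) * eI (Sph T y) +
      (((ζ p - min (lam p * ‖y‖) (q p) : ℝ) : ℂ) * eI (V' p) +
        ((min (lam p * ‖y‖) (q p) : ℝ) : ℂ) * eI (Lam a (Sph T y) (V' p))))) p₀ y₀ := by
    intro V' hV'
    have h := RegAt.of_kinkLam (C := fun p => C p + ((ζ p : ℝ) : ℂ) * eI (V' p))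
      (q := q) hy₀ hal (angLift_Sph hy₀ hk h1 h2) (eI_two_a_pi a) hlam hlam0 hq hV'
      (Or.inl (Sph_le hk hka h1 h2))
    refine h.congr ⟨univ, univ_mem, Eventually.of_forall fun p y _ => ?_⟩
    simp only [kinkLam, Lam_eq_kLam, eI]
    push_cast
    ring
  rcases hV with hV | hV
  · exact main V hV
  · refine (main (fun _ => Real.pi) continuousWithinAt_const).congr ⟨univ, univ_mem, ?_⟩
    filter_upwards [hV] with p hp y _
    rcases hp with hp | hp
    · rw [hp]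
    · rw [hp, eI_odd_pi, Lam_cut (neg_pi_le_Sph T y)]

end Vale.Agent.P268.T.RV
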