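import Vale.Agent.P268.T.Mono
import Vale.Agent.P268.T.PlatesA

/-!
# P268, topological half: plots

Regularity along curved directions: if `Ψ c x = x + A c + o(c)` near `x₀`, the family `F` is
Lipschitz near `x₀` and strongly monotone along the plot `Ψ`, then `F` is regular at `x₀`.
-/

set_option linter.unusedSectionVars false

namespace Vale.Agent.P268.T

open Set Filter Topology

variable {E : Type*} [NormedAddCommGroup E] [NormedSpace ℝ E]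
  {T : Type*} [TopologicalSpace T]
  {Z : Type*} [NormedAddCommGroup Z] [InnerProductSpace ℝ Z] [FiniteDimensional ℝ Z]

/-- `Ψ` is a plot with direction `A` at `x₀`. -/
def IsPlot (Ψ : Z → E → E) (A : Z →L[ℝ] E) (x₀ : E) : Prop :=
  ∀ ε > 0, ∃ U ∈ 𝓝 x₀, ∃ δ > 0, ∀ x ∈ U, ∀ c, ‖c‖ ≤ δ → ‖Ψ c x - (x + A c)‖ ≤ ε * ‖c‖

theorem IsPlot.near {Ψ : Z → E → E} {A : Z →L[ℝ] E} {x₀ : E} (h : IsPlot Ψ A x₀) {V : Set E}
    (hV : V ∈ 𝓝 x₀) : ∃ U ∈ 𝓝 x₀, ∃ δ > 0, ∀ x ∈ U, ∀ c, ‖c‖ ≤ δ → Ψ c x ∈ V := by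
  obtain ⟨U, hU, δ, hδ, hb⟩ := h 1 one_pos
  obtain ⟨R, hR, hRV⟩ := Metric.mem_nhds_iff.mp hV
  refine ⟨U ∩ Metric.ball x₀ (R / 2), inter_mem hU (Metric.ball_mem_nhds _ (half_pos hR)),
    min δ (R / (2 * (‖A‖ + 2))), lt_min hδ (by positivity), fun x hx c hc => hRV ?_⟩
  rw [Metric.mem_ball, dist_eq_norm]
  have h1 := hb x hx.1 c (hc.trans (min_le_left _ _))
  have h2 : ‖x - x₀‖ < R / 2 := by
    have := hx.2
    rwa [Metric.mem_ball, dist_eq_norm] at this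
  have h3 : ‖c‖ ≤ R / (2 * (‖A‖ + 2)) := hc.trans (min_le_right _ _)
  have h4 : ‖A c‖ ≤ ‖A‖ * ‖c‖ := A.le_opNorm c
  have h5 : (‖A‖ + 2) * ‖c‖ ≤ R / 2 := by
    rw [le_div_iff₀ (by positivity)] at h3
    linarith
  have e : Ψ c x - x₀ = (Ψ c x - (x + A c)) + (x - x₀) + A c := by abel
  rw [e]
  calc ‖(Ψ c x - (x + A c)) + (x - x₀) + A c‖
      ≤ ‖Ψ c x - (x + A c)‖ + ‖x - x₀‖ + ‖A c‖ := norm_add₃_le
    _ < 1 * ‖c‖ + R / 2 + ‖A‖ * ‖c‖ := by linarith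
    _ ≤ (‖A‖ + 2) * ‖c‖ + R / 2 := by nlinarith [norm_nonneg c]
    _ ≤ R := by linarith

/-- **Plot lemma.** -/
theorem RegAt.of_plot {s : Set T} {F : T → E → Z} {t₀ : T} {x₀ : E} {κ Λ : ℝ} (hκ : 0 < κ)
    {Ψ : Z → E → E} {A : Z →L[ℝ] E} (hΨ : IsPlot Ψ A x₀) (hF : LocLip s F t₀ x₀)
    (h : ∃ U ∈ 𝓝 x₀, ∃ δ > 0, ∀ᶠ t in 𝓝[s] t₀, ∀ x ∈ U, ∀ c, ‖c‖ ≤ δ →
      κ * ‖c‖ ^ 2 ≤ inner ℝ (F t (Ψ c x) - F t x) c ∧ ‖F t (Ψ c x) - F t x‖ ≤ Λ * ‖c‖) :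
    RegAt s F t₀ x₀ := by
  obtain ⟨L', U1, hU1, hL'⟩ := hF
  set L : ℝ := |L'| + 1 with hL
  have hL0 : 0 < L := by positivity
  have hLL : ∀ᶠ t in 𝓝[s] t₀, ∀ x ∈ U1, ∀ y ∈ U1, ‖F t x - F t y‖ ≤ L * ‖x - y‖ := by
    filter_upwards [hL'] with t ht x hx y hy
    refine (ht x hx y hy).trans (mul_le_mul_of_nonneg_right ?_ (norm_nonneg _))
    linarith [le_abs_self L']
  obtain ⟨U2, hU2, δ2, hδ2, hev⟩ := h
  set ε : ℝ := κ / (2 * L) with hε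
  have hε0 : 0 < ε := by positivity
  obtain ⟨U3, hU3, δ3, hδ3, hpl⟩ := hΨ ε hε0
  obtain ⟨U4, hU4, δ4, hδ4, hnear⟩ := hΨ.near hU1
  rcases eq_or_neBot (𝓝[s] t₀) with hbot | hne
  · refine RegAt.of_monotone (κ := κ) (Λ := Λ) hκ A ⟨univ, univ_mem, ?_⟩
    rw [hbot]; exact eventually_bot
  -- the estimate along `A`
  have hest : ∀ t, (∀ x ∈ U1, ∀ y ∈ U1, ‖F t x - F t y‖ ≤ L * ‖x - y‖) →
      (∀ x ∈ U2, ∀ c, ‖c‖ ≤ δ2 →
        κ * ‖c‖ ^ 2 ≤ inner ℝ (F t (Ψ c x) - F t x) c ∧ ‖F t (Ψ c x) - F t x‖ ≤ Λ * ‖c‖) →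
      ∀ x ∈ U2 ∩ U3 ∩ U4, ∀ c, ‖c‖ ≤ min δ2 (min δ3 δ4) → x + A c ∈ U1 →
      κ / 2 * ‖c‖ ^ 2 ≤ inner ℝ (F t (x + A c) - F t x) c ∧
        ‖F t (x + A c) - F t x‖ ≤ (Λ + κ / 2) * ‖c‖ := by
    intro t h1 h2 x hx c hc hxA
    have hc2 : ‖c‖ ≤ δ2 := hc.trans (min_le_left _ _)
    have hc3 : ‖c‖ ≤ δ3 := hc.trans ((min_le_right _ _).trans (min_le_left _ _))
    have hc4 : ‖c‖ ≤ δ4 := hc.trans ((min_le_right _ _).trans (min_le_right _ _))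
    obtain ⟨e1, e2⟩ := h2 x hx.1.1 c hc2
    have e3 := hpl x hx.1.2 c hc3
    have e4 := hnear x hx.2 c hc4
    have e5 : ‖F t (x + A c) - F t (Ψ c x)‖ ≤ κ / 2 * ‖c‖ := by
      calc ‖F t (x + A c) - F t (Ψ c x)‖ ≤ L * ‖x + A c - Ψ c x‖ := h1 _ hxA _ e4
        _ = L * ‖Ψ c x - (x + A c)‖ := by rw [norm_sub_rev]
        _ ≤ L * (ε * ‖c‖) := mul_le_mul_of_nonneg_left e3 hL0.le
        _ = κ / 2 * ‖c‖ := by rw [hε]; field_simp
    have e6 : F t (x + A c) - F t x = (F t (x + A c) - F t (Ψ c x)) + (F t (Ψ c x) - F t x) := by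
      abel
    constructor
    · rw [e6, inner_add_left]
      have e7 : |inner ℝ (F t (x + A c) - F t (Ψ c x)) c| ≤ κ / 2 * ‖c‖ * ‖c‖ :=
        (abs_real_inner_le_norm _ _).trans (mul_le_mul_of_nonneg_right e5 (norm_nonneg _))
      have e8 := (abs_le.mp e7).1
      nlinarith
    · rw [e6]
      refine (norm_add_le _ _).trans ?_
      nlinarith
  -- `A` is injective
  have hx1 : x₀ ∈ U1 := mem_of_mem_nhds hU1
  have hinj : LinearMap.ker (A : Z →ₗ[ℝ] E) = ⊥ := by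
    rw [LinearMap.ker_eq_bot']
    intro c hc
    by_contra hne'
    obtain ⟨t, ht1, ht2⟩ := (hLL.and hev).exists
    have hn : 0 < ‖c‖ := norm_pos_iff.mpr hne'
    set m : ℝ := min δ2 (min δ3 δ4) with hm
    have hm0 : 0 < m := lt_min hδ2 (lt_min hδ3 hδ4)
    have hAc : A ((m / ‖c‖) • c) = 0 := by
      rw [map_smul]
      have : A c = 0 := hc
      rw [this, smul_zero]
    have hnc : ‖(m / ‖c‖) • c‖ = m := by
      rw [norm_smul, Real.norm_eq_abs, abs_of_pos (by positivity)]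
      field_simp
    have h5 := (hest t ht1 ht2 x₀ ⟨⟨mem_of_mem_nhds hU2, mem_of_mem_nhds hU3⟩,
      mem_of_mem_nhds hU4⟩ ((m / ‖c‖) • c) hnc.le (by rw [hAc, add_zero]; exact hx1)).1
    rw [hAc, add_zero, sub_self, inner_zero_left, hnc] at h5
    have : 0 < κ / 2 * m ^ 2 := by positivity
    linarith
  obtain ⟨K, hK0, hK⟩ := LinearMap.exists_antilipschitzWith (A : Z →ₗ[ℝ] E) hinj
  have hK' : ∀ c : Z, ‖c‖ ≤ K * ‖A c‖ := by
    intro c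
    have := hK.le_mul_dist c 0
    simpa using this
  have hK0' : (0 : ℝ) < K := by exact_mod_cast hK0
  obtain ⟨R, hR, hball⟩ := Metric.mem_nhds_iff.mp
    (inter_mem hU1 (inter_mem (inter_mem hU2 hU3) hU4))
  set m : ℝ := min δ2 (min δ3 δ4) with hm
  have hm0 : 0 < m := lt_min hδ2 (lt_min hδ3 hδ4)
  refine RegAt.of_monotone (κ := κ / 2) (Λ := Λ + κ / 2) (half_pos hκ) A
    ⟨Metric.ball x₀ (min R (m / (2 * K))), Metric.ball_mem_nhds _ (lt_min hR (by positivity)), ?_⟩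
  filter_upwards [hLL, hev] with t ht1 ht2 x hx c hc
  have hxR := hball (Metric.ball_subset_ball (min_le_left _ _) hx)
  have hcR := hball (Metric.ball_subset_ball (min_le_left _ _) hc)
  refine hest t ht1 ht2 x hxR.2 c ?_ hcR.1
  have h1 : ‖x - x₀‖ < m / (2 * K) := by
    have := Metric.ball_subset_ball (min_le_right _ _) hx
    rwa [Metric.mem_ball, dist_eq_norm] at this
  have h2 : ‖x + A c - x₀‖ < m / (2 * K) := by
    have := Metric.ball_subset_ball (min_le_right _ _) hc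
    rwa [Metric.mem_ball, dist_eq_norm] at this
  have h3 : ‖A c‖ ≤ m / K := by
    have e : A c = (x + A c - x₀) - (x - x₀) := by abel
    calc ‖A c‖ = ‖(x + A c - x₀) - (x - x₀)‖ := by rw [← e]
      _ ≤ ‖x + A c - x₀‖ + ‖x - x₀‖ := norm_sub_le _ _
      _ ≤ m / (2 * K) + m / (2 * K) := by linarith
      _ = m / K := by field_simp; ring
  calc ‖c‖ ≤ K * ‖A c‖ := hK' c
    _ ≤ K * (m / K) := mul_le_mul_of_nonneg_left h3 hK0'.le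
    _ = m := by field_simp

end Vale.Agent.P268.T
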