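import Vale.Agent.P268.T.H594.KinkProf
import Vale.Agent.P268.T.H603.ZDir
import Vale.Agent.P268.T.H266.Lev

/-!
# P268, topological half, route V: rests and borders of `y`
-/

set_option linter.unusedSectionVars false

namespace Vale.Agent.P268.T

open Set Filter Topology

namespace RV

namespace H594

/-! ### The phase near an odd multiple of `π` -/

theorem eI_two_pi : eI (2 * Real.pi) = 1 := by
  have := eI_two_a_pi 1
  unfold eI
  rw [← this]
  norm_num

theorem eI_neg_two_pi : eI (-(2 * Real.pi)) = 1 := by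
  have h := eI_add (2 * Real.pi) (-(2 * Real.pi))
  rw [add_neg_cancel, eI_zero, eI_two_pi, one_mul] at h
  exact h.symm

theorem eI_odd (k : ℕ) : eI (Real.pi + 2 * k * Real.pi) = -1 := by
  rw [eI_add, eI_pi]
  have := eI_two_a_pi k
  rw [show eI (2 * k * Real.pi) = 1 from this, mul_one]

theorem eI_R (a : ℕ) : eI ((2 * a + 1) * Real.pi) = -1 := by
  have h := eI_odd a
  rw [← h]
  congr 1
  ring

/-- Near `(S₀, V₀)` the function `g` is either `V` up to a period, or a function of `S` with value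
`-1` at `S₀`. -/
def Typ (S₀ V₀ : ℝ) (g : ℝ × ℝ → ℝ) : Prop :=
  (∃ c : ℝ, eI c = 1 ∧ ∀ᶠ x in 𝓝 (S₀, V₀), g x = x.2 + c) ∨
    ∃ f : ℝ → ℝ, ContinuousAt f S₀ ∧ eI (f S₀) = -1 ∧ ∀ᶠ x in 𝓝 (S₀, V₀), g x = f x.1

theorem Typ.minmax {S₀ V₀ : ℝ} (hV : eI V₀ ≠ -1) {g h : ℝ × ℝ → ℝ} (hg : Typ S₀ V₀ g)
    (hh : Typ S₀ V₀ h) : Typ S₀ V₀ (fun x => min (g x) (h x)) ∧
      Typ S₀ V₀ (fun x => max (g x) (h x)) := by
  -- mixed case
  have mix : ∀ {g h : ℝ × ℝ → ℝ} {c : ℝ} {f : ℝ → ℝ}, eI c = 1 →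
      (∀ᶠ x in 𝓝 (S₀, V₀), g x = x.2 + c) → ContinuousAt f S₀ → eI (f S₀) = -1 →
      (∀ᶠ x in 𝓝 (S₀, V₀), h x = f x.1) →
      (∀ᶠ x in 𝓝 (S₀, V₀), g x < h x) ∨ (∀ᶠ x in 𝓝 (S₀, V₀), h x < g x) := by
    intro g h c f hc hg hf hf1 hh
    have hne : V₀ + c ≠ f S₀ := by
      intro e
      apply hV
      rw [← hf1, ← e, eI_add, hc, mul_one]
    have c1 : ContinuousAt (fun x : ℝ × ℝ => x.2 + c) (S₀, V₀) := by fun_prop
    have c2 : ContinuousAt (fun x : ℝ × ℝ => f x.1) (S₀, V₀) :=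
      ContinuousAt.comp (g := f) (f := Prod.fst) hf continuousAt_fst
    rcases lt_or_gt_of_ne hne with e | e
    · left
      filter_upwards [hg, hh, c1.eventually_lt c2 e] with x e1 e2 e3
      rw [e1, e2]; exact e3
    · right
      filter_upwards [hg, hh, c2.eventually_lt c1 e] with x e1 e2 e3
      rw [e1, e2]; exact e3
  have mix' : ∀ {g h : ℝ × ℝ → ℝ}, (Typ S₀ V₀ g) → (Typ S₀ V₀ h) →
      ((∀ᶠ x in 𝓝 (S₀, V₀), g x < h x) ∨ (∀ᶠ x in 𝓝 (S₀, V₀), h x < g x)) →
      Typ S₀ V₀ (fun x => min (g x) (h x)) ∧ Typ S₀ V₀ (fun x => max (g x) (h x)) := by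
    intro g h hg hh hc
    have tr : ∀ {g k : ℝ × ℝ → ℝ}, Typ S₀ V₀ g → (∀ᶠ x in 𝓝 (S₀, V₀), k x = g x) →
        Typ S₀ V₀ k := by
      intro g k hg hk
      rcases hg with ⟨c, hc, e⟩ | ⟨f, hf, hf1, e⟩
      · exact Or.inl ⟨c, hc, by filter_upwards [hk, e] with x e1 e2; rw [e1, e2]⟩
      · exact Or.inr ⟨f, hf, hf1, by filter_upwards [hk, e] with x e1 e2; rw [e1, e2]⟩
    rcases hc with hc | hc
    · exact ⟨tr hg (hc.mono fun x hx => min_eq_left hx.le),
        tr hh (hc.mono fun x hx => max_eq_right hx.le)⟩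
    · exact ⟨tr hh (hc.mono fun x hx => min_eq_right hx.le),
        tr hg (hc.mono fun x hx => max_eq_left hx.le)⟩
  rcases hg with ⟨c, hc, e⟩ | ⟨f, hf, hf1, e⟩
  · rcases hh with ⟨c', hc', e'⟩ | ⟨f', hf', hf1', e'⟩
    · constructor
      · refine Or.inl ⟨min c c', ?_, ?_⟩
        · rcases min_choice c c' with h | h <;> rw [h] <;> assumption
        · filter_upwards [e, e'] with x e1 e2
          rw [e1, e2, min_add_add_left]
      · refine Or.inl ⟨max c c', ?_, ?_⟩
        · rcases max_choice c c' with h | h <;> rw [h] <;> assumption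
        · filter_upwards [e, e'] with x e1 e2
          rw [e1, e2, max_add_add_left]
    · exact mix' (Or.inl ⟨c, hc, e⟩) (Or.inr ⟨f', hf', hf1', e'⟩) (mix hc e hf' hf1' e')
  · rcases hh with ⟨c', hc', e'⟩ | ⟨f', hf', hf1', e'⟩
    · exact mix' (Or.inr ⟨f, hf, hf1, e⟩) (Or.inl ⟨c', hc', e'⟩)
        ((mix hc' e' hf hf1 e).symm)
    · constructor
      · refine Or.inr ⟨fun S => min (f S) (f' S), hf.min hf', ?_, ?_⟩
        · show eI (min (f S₀) (f' S₀)) = -1
          rcases min_choice (f S₀) (f' S₀) with h | h <;> rw [h] <;> assumption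
        · filter_upwards [e, e'] with x e1 e2
          rw [e1, e2]
      · refine Or.inr ⟨fun S => max (f S) (f' S), hf.max hf', ?_, ?_⟩
        · show eI (max (f S₀) (f' S₀)) = -1
          rcases max_choice (f S₀) (f' S₀) with h | h <;> rw [h] <;> assumption
        · filter_upwards [e, e'] with x e1 e2
          rw [e1, e2]

/-- The window phase near `(S₀, V₀)`, where `e^{iS₀} = -1` and `e^{iV₀} ≠ -1`. -/
theorem Lam_typ (a : ℕ) {S₀ V₀ : ℝ} (hS : eI S₀ = -1) (hV : eI V₀ ≠ -1) :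
    Typ S₀ V₀ (fun x => Lam a x.1 x.2) := by
  have t1 : Typ S₀ V₀ (fun x => x.2) := Or.inl ⟨0, eI_zero, Eventually.of_forall fun x => by simp⟩
  have t2 : Typ S₀ V₀ (fun x => x.2 - 2 * Real.pi) :=
    Or.inl ⟨-(2 * Real.pi), eI_neg_two_pi, Eventually.of_forall fun x => by ring⟩
  have t3 : Typ S₀ V₀ (fun x => x.1) :=
    Or.inr ⟨fun S => S, continuousAt_id, hS, Eventually.of_forall fun x => rfl⟩
  have t4 : Typ S₀ V₀ (fun _ => (2 * a + 1) * Real.pi) :=
    Or.inr ⟨fun _ => (2 * a + 1) * Real.pi, continuousAt_const, eI_R a,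
      Eventually.of_forall fun x => rfl⟩
  have t5 : Typ S₀ V₀ (fun x => x.1 + 2 * a * Real.pi) :=
    Or.inr ⟨fun S => S + 2 * a * Real.pi, by fun_prop, by
      show eI (S₀ + 2 * a * Real.pi) = -1
      rw [eI_add, hS]
      have := eI_two_a_pi a
      rw [show eI (2 * a * Real.pi) = 1 from this, mul_one],
      Eventually.of_forall fun x => rfl⟩
  exact (Typ.minmax hV (Typ.minmax hV t2 (Typ.minmax hV t3 (Typ.minmax hV t1 t4).1).1).2 t5).1

theorem eI_Lam_odd (a : ℕ) {S₀ V₀ : ℝ} (hS : eI S₀ = -1) (hV : eI V₀ = -1) :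
    eI (Lam a S₀ V₀) = -1 := by
  have h1 : eI (V₀ - 2 * Real.pi) = -1 := by
    rw [sub_eq_add_neg, eI_add, eI_neg_two_pi, hV, mul_one]
  have h2 : eI (S₀ + 2 * a * Real.pi) = -1 := by
    rw [eI_add, hS]
    have := eI_two_a_pi a
    rw [show eI (2 * a * Real.pi) = 1 from this, mul_one]
  have hmin : ∀ x y : ℝ, eI x = -1 → eI y = -1 → eI (min x y) = -1 := by
    intro x y hx hy
    rcases min_choice x y with h | h <;> rw [h] <;> assumption
  have hmax : ∀ x y : ℝ, eI x = -1 → eI y = -1 → eI (max x y) = -1 := by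
    intro x y hx hy
    rcases max_choice x y with h | h <;> rw [h] <;> assumption
  unfold Lam
  exact hmin _ _ (hmax _ _ h1 (hmin _ _ hS (hmin _ _ hV (eI_R a)))) h2

/-! ### Positions -/

theorem continuous_prof (T : ℕ) : Continuous (prof T) := by
  unfold prof xc clamp01
  fun_prop

theorem continuous_clamp01 : Continuous clamp01 := by
  unfold clamp01
  fun_prop

theorem continuousAt_pos {T : ℕ} {y : ℂ} (hy : y ∈ Complex.slitPlane) :
    ContinuousAt (pos T) y := by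
  unfold pos xc
  exact ((Complex.continuousAt_arg hy).add_const _ |>.mul_const _).div_const _

theorem continuousAt_Sph {T : ℕ} {y : ℂ} (hy : y ∈ Complex.slitPlane) :
    ContinuousAt (Sph T) y := by
  unfold Sph
  exact ((continuous_prof T).continuousAt.comp (Complex.continuousAt_arg hy)).sub_const _

/-- Position at the cut. -/
theorem pos_cut {T : ℕ} {y : ℂ} (h : Complex.arg y = Real.pi) : pos T y = 2 * T + 1 := by
  unfold pos xc
  rw [h]
  have := Real.pi_ne_zero
  field_simp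
  ring

/-- Near the cut the position is close to `0` or to `2T + 1`. -/
theorem pos_near_cut {T : ℕ} {y₀ : ℂ} (hy₀ : Complex.arg y₀ = Real.pi) {δ : ℝ} (hδ : 0 < δ) :
    ∀ᶠ y in 𝓝 y₀, pos T y < δ ∨ 2 * T + 1 - δ < pos T y := by
  have hpi := Real.pi_pos
  have hT : (0 : ℝ) < 2 * T + 1 := by positivity
  have hy0 : y₀ ≠ 0 := by
    rintro rfl
    rw [Complex.arg_zero] at hy₀
    exact hpi.ne hy₀
  have hε : 0 < min (Real.pi / 2) (δ * (2 * Real.pi) / (2 * T + 1)) := by positivity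
  filter_upwards [eventually_arg_small hy0 hε, eventually_ne_nhds hy0] with y hy hyne
  obtain ⟨h1, h2⟩ := abs_lt.mp hy
  have m1 := min_le_left (Real.pi / 2) (δ * (2 * Real.pi) / (2 * T + 1))
  have m2 := min_le_right (Real.pi / 2) (δ * (2 * Real.pi) / (2 * T + 1))
  set α := Complex.arg (y / y₀) with hα
  have e : y = y₀ * (y / y₀) := by field_simp
  have hc : ((Complex.arg y : ℝ) : Real.Angle) = ((Real.pi + α : ℝ) : Real.Angle) := by
    have h := Complex.arg_mul_coe_angle hy0 (div_ne_zero hyne hy0)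
    rw [← e, hy₀, ← Real.Angle.coe_add] at h
    exact h
  rcases le_or_gt α 0 with hα0 | hα0
  · right
    have harg : Complex.arg y = Real.pi + α := by
      have h5 := congrArg Real.Angle.toReal hc
      rw [Complex.arg_coe_angle_toReal_eq_arg, Real.Angle.toReal_coe_eq_self_iff.mpr
        ⟨by linarith, by linarith⟩] at h5
      exact h5
    unfold pos xc
    rw [harg, lt_div_iff₀ (by positivity)]
    have h6 : -(δ * (2 * Real.pi) / (2 * T + 1)) < α := by linarith
    have h7 : -(δ * (2 * Real.pi)) < α * (2 * T + 1) := by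
      rw [← neg_div, div_lt_iff₀ hT] at h6
      exact h6
    nlinarith
  · left
    have harg : Complex.arg y = α - Real.pi := by
      have h5 : ((Complex.arg y : ℝ) : Real.Angle) = ((α - Real.pi : ℝ) : Real.Angle) := by
        rw [hc, Real.Angle.angle_eq_iff_two_pi_dvd_sub]
        exact ⟨1, by push_cast; ring⟩
      have h6 := congrArg Real.Angle.toReal h5
      rw [Complex.arg_coe_angle_toReal_eq_arg, Real.Angle.toReal_coe_eq_self_iff.mpr
        ⟨by linarith, by linarith⟩] at h6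
      exact h6
    unfold pos xc
    rw [harg, div_lt_iff₀ (by positivity)]
    have h6 : α < δ * (2 * Real.pi) / (2 * T + 1) := by linarith
    rw [lt_div_iff₀ hT] at h6
    nlinarith


theorem pos_mem (T : ℕ) (y : ℂ) : 0 ≤ pos T y ∧ pos T y ≤ 2 * T + 1 := by
  unfold pos
  rw [← xc_neg_pi T, ← xc_pi T]
  exact ⟨xc_mono (Complex.neg_pi_lt_arg y).le, xc_mono (Complex.arg_le_pi y)⟩

theorem Sph_cut_low {T : ℕ} {y : ℂ} (h : pos T y ≤ 1) : Sph T y = -Real.pi := by
  have h0 : 0 ≤ xc T (Complex.arg y) := (pos_mem T y).1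
  have h1 : xc T (Complex.arg y) ≤ 1 := h
  unfold Sph
  rw [prof_eq_rest (k := 0) (Nat.zero_le _) (by simpa using h0) (by simpa using h1)]
  push_cast
  ring

theorem Sph_cut_high {T : ℕ} {y : ℂ} (h : 2 * (T : ℝ) ≤ pos T y) :
    Sph T y = (2 * T - 1) * Real.pi := by
  unfold Sph
  rw [prof_eq_rest (k := T) le_rfl h (pos_mem T y).2]
  ring

/-- The two lifts of the phase of `y` at the cut give the same window phase. -/
theorem Lam_cutS {T a : ℕ} (hT : a + 1 ≤ T) {V : ℝ} (h1 : Real.pi ≤ V)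
    (h2 : V ≤ (2 * a + 3) * Real.pi) :
    eI (Lam a ((2 * T - 1) * Real.pi) V) = eI (Lam a (-Real.pi) V) := by
  have hpi := Real.pi_pos
  have hT' : (a : ℝ) + 1 ≤ T := by exact_mod_cast hT
  have ha : (0 : ℝ) ≤ a := by positivity
  have e1 : Lam a (-Real.pi) V = min V ((2 * a + 1) * Real.pi) - 2 * Real.pi := by
    unfold Lam
    have h3 : min (-Real.pi) (min V ((2 * a + 1) * Real.pi)) = -Real.pi := by
      refine min_eq_left (le_min (by linarith) ?_)
      nlinarith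
    rw [h3, max_eq_left (by linarith), ← min_sub_sub_right]
    congr 1
    ring
  have e2 : Lam a ((2 * T - 1) * Real.pi) V = min V ((2 * a + 1) * Real.pi) := by
    unfold Lam
    have h3 : (2 * a + 1) * Real.pi ≤ (2 * T - 1) * Real.pi :=
      mul_le_mul_of_nonneg_right (by linarith) hpi.le
    have h4 : min V ((2 * a + 1) * Real.pi) ≤ (2 * T - 1) * Real.pi :=
      (min_le_right _ _).trans h3
    rw [min_eq_right h4, max_eq_right, min_eq_left]
    · have : 0 ≤ 2 * (a : ℝ) * Real.pi := by positivity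
      linarith
    · refine le_min (by linarith) ?_
      nlinarith
  rw [e1, e2, sub_eq_add_neg, eI_add, eI_neg_two_pi, mul_one]

/-- Near a point `y₀` with `e^{iS} = -1`, the function `e^{iΛ}` is either `e^{iV}` or independent of
`V`. -/
theorem Lam_local {T a : ℕ} (hT : a + 1 ≤ T) {y₀ : ℂ} (hy₀ : y₀ ≠ 0) (hS : eI (Sph T y₀) = -1)
    {V₀ : ℝ} (hV : eI V₀ ≠ -1) :
    (∀ᶠ x in 𝓝 (y₀, V₀), Real.pi ≤ x.2 → x.2 ≤ (2 * a + 3) * Real.pi →
      eI (Lam a (Sph T x.1) x.2) = eI x.2) ∨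
      ∃ w : ℂ → ℂ, w y₀ = -1 ∧ ContinuousAt w y₀ ∧
        ∀ᶠ x in 𝓝 (y₀, V₀), Real.pi ≤ x.2 → x.2 ≤ (2 * a + 3) * Real.pi →
          eI (Lam a (Sph T x.1) x.2) = w x.1 := by
  by_cases hcut : Complex.arg y₀ = Real.pi
  · -- at the cut
    have hT' : (a : ℝ) + 1 ≤ T := by exact_mod_cast hT
    have hS' : eI (-Real.pi) = -1 := by
      have h := eI_add (-Real.pi) (2 * Real.pi)
      rw [eI_two_pi, mul_one, show -Real.pi + 2 * Real.pi = Real.pi by ring, eI_pi] at h
      exact h.symm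
    have hnear : ∀ᶠ x : ℂ × ℝ in 𝓝 (y₀, V₀), Real.pi ≤ x.2 → x.2 ≤ (2 * a + 3) * Real.pi →
        eI (Lam a (Sph T x.1) x.2) = eI (Lam a (-Real.pi) x.2) := by
      have h1 := (pos_near_cut (T := T) hcut one_pos)
      have h2 : ∀ᶠ x : ℂ × ℝ in 𝓝 (y₀, V₀), pos T x.1 < 1 ∨ 2 * (T : ℝ) + 1 - 1 < pos T x.1 :=
        (continuous_fst.tendsto (y₀, V₀)).eventually h1
      filter_upwards [h2] with x hx hx1 hx2
      rcases hx with hx | hx
      · rw [Sph_cut_low hx.le]
      · rw [Sph_cut_high (by linarith)]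
        exact Lam_cutS hT hx1 hx2
    have hmap : ContinuousAt (fun x : ℂ × ℝ => ((-Real.pi : ℝ), x.2)) (y₀, V₀) := by fun_prop
    rcases Lam_typ a hS' hV with ⟨c, hc, h⟩ | ⟨f, hf, hf1, h⟩
    · left
      filter_upwards [hnear, hmap.eventually h] with x e1 e2 h1 h2
      rw [e1 h1 h2, e2, eI_add, hc, mul_one]
    · right
      refine ⟨fun _ => -1, rfl, continuousAt_const, ?_⟩
      filter_upwards [hnear, hmap.eventually h] with x e1 e2 h1 h2
      rw [e1 h1 h2, e2]
      exact hf1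
  · have hslit : y₀ ∈ Complex.slitPlane := by
      rw [Complex.mem_slitPlane_iff_arg]
      exact ⟨hcut, hy₀⟩
    have hcS := continuousAt_Sph (T := T) hslit
    have hfst : ContinuousAt (fun x : ℂ × ℝ => Sph T x.1) (y₀, V₀) :=
      ContinuousAt.comp (x := (y₀, V₀)) (g := Sph T) (f := fun x : ℂ × ℝ => x.1) hcS
        continuous_fst.continuousAt
    have hmap : ContinuousAt (fun x : ℂ × ℝ => (Sph T x.1, x.2)) (y₀, V₀) :=
      hfst.prodMk continuous_snd.continuousAt
    rcases Lam_typ a hS hV with ⟨c, hc, h⟩ | ⟨f, hf, hf1, h⟩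
    · left
      filter_upwards [hmap.eventually h] with x e2 _ _
      rw [e2, eI_add, hc, mul_one]
    · right
      refine ⟨fun y => eI (f (Sph T y)), hf1, ?_, ?_⟩
      · exact continuous_eI.continuousAt.comp
          (ContinuousAt.comp (g := f) (f := Sph T) hf hcS)
      · filter_upwards [hmap.eventually h] with x e2 _ _
        rw [e2]

theorem Vph_mem (a : ℕ) (z : ℂ) : Real.pi ≤ Vph a z ∧ Vph a z ≤ (2 * a + 3) * Real.pi := by
  have hpi := Real.pi_pos
  have h0 : ∀ k : ℕ, 0 ≤ clamp01 (xc (a + 1) (Complex.arg z) - (2 * k + 1)) :=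
    fun k => clamp01_nonneg _
  have h1 : ∀ k : ℕ, clamp01 (xc (a + 1) (Complex.arg z) - (2 * k + 1)) ≤ 1 :=
    fun k => clamp01_le_one _
  unfold Vph prof
  constructor
  · have : 0 ≤ ∑ k ∈ Finset.range (a + 1), clamp01 (xc (a + 1) (Complex.arg z) - (2 * k + 1)) :=
      Finset.sum_nonneg fun k _ => h0 k
    nlinarith
  · have : ∑ k ∈ Finset.range (a + 1), clamp01 (xc (a + 1) (Complex.arg z) - (2 * k + 1)) ≤
        ∑ k ∈ Finset.range (a + 1), (1 : ℝ) := Finset.sum_le_sum fun k _ => h1 k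
    simp only [Finset.sum_const, Finset.card_range, nsmul_eq_mul, mul_one, Nat.cast_add,
      Nat.cast_one] at this
    nlinarith

/-- The window function of `y` is continuous off `0`. -/
theorem continuousAt_cy {T a : ℕ} (hT : a + 1 ≤ T) {y₀ : ℂ} (hy₀ : y₀ ≠ 0) :
    ContinuousAt (cy T a) y₀ := by
  by_cases hcut : Complex.arg y₀ = Real.pi
  · have hT' : (a : ℝ) + 1 ≤ T := by exact_mod_cast hT
    have hev : ∀ᶠ y in 𝓝 y₀, cy T a y = 0 := by
      filter_upwards [pos_near_cut (T := T) hcut (δ := 1 / 8) (by norm_num)] with y hy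
      unfold cy
      rcases hy with hy | hy
      · have ha : (0 : ℝ) ≤ a := by positivity
        rw [clamp01_of_le_zero (by linarith), clamp01_of_le_zero (by linarith), sub_zero]
      · rw [clamp01_eq_one (by linarith), clamp01_eq_one (by linarith), sub_self]
    exact (continuousAt_const (y := (0 : ℝ))).congr (hev.mono fun y hy => hy.symm)
  · have hslit : y₀ ∈ Complex.slitPlane := by
      rw [Complex.mem_slitPlane_iff_arg]
      exact ⟨hcut, hy₀⟩
    have hc := continuousAt_pos (T := T) hslit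
    unfold cy
    refine ContinuousAt.sub ?_ ?_
    · exact continuous_clamp01.continuousAt.comp
        (continuousAt_const.mul ((hc.sub continuousAt_const).sub continuousAt_const))
    · exact continuous_clamp01.continuousAt.comp
        (continuousAt_const.mul ((hc.sub continuousAt_const).sub continuousAt_const))

theorem cy_nonneg (T a : ℕ) (hT : a + 1 ≤ T) (y : ℂ) : 0 ≤ cy T a y := by
  have hT' : (a : ℝ) + 1 ≤ T := by exact_mod_cast hT
  unfold cy
  exact sub_nonneg.mpr (clamp01_mono (by linarith))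

/-- In an open turn of `z` the core phase is an angle lift. -/
theorem angLift_Vph {a k : ℕ} {z₀ : ℂ} (hz₀ : z₀ ≠ 0) (hk : k < a + 1)
    (h1 : 2 * (k : ℝ) + 1 < pos (a + 1) z₀) (h2 : pos (a + 1) z₀ < 2 * k + 2) :
    AngLift (Vph a) (2 * (a + 1 : ℕ) + 1) z₀ := by
  filter_upwards [angLift_Sph hz₀ hk h1 h2] with z hz
  unfold Sph at hz
  unfold Vph
  linarith

end H594

open H594

/-- **Rests and borders of `y`**: regularity of the link in the direction of `z`. -/
theorem rest_reg {T a : ℕ} (hT : a + 1 ≤ T) {lam t₀ : ℝ} (_hlam : 0 ≤ lam)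
    (_ht₀ : t₀ ∈ Icc (0 : ℝ) 1) {y₀ z₀ : ℂ} (hy₀ : y₀ ≠ 0) (hz₀ : z₀ ≠ 0)
    (hS : eI (Sph T y₀) = -1)
    (hre : 0 ≤ (((‖y₀‖ : ℝ) : ℂ) * eI (Sph T y₀) + lkw T a lam t₀ y₀ z₀).re) :
    RegAt (Icc (0 : ℝ) 1 ×ˢ (univ : Set ℂ)) (fun (p : ℝ × ℂ) z => lkw T a lam p.1 p.2 z)
      (t₀, y₀) z₀ := by
  have hy0 : 0 < ‖y₀‖ := norm_pos_iff.mpr hy₀
  have hz0 : 0 < ‖z₀‖ := norm_pos_iff.mpr hz₀
  have hb0 : bw T a lam t₀ y₀ z₀ ≤ ‖z₀‖ := min_le_right _ _
  -- `V` is not at an odd multiple of `π`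
  have hV : eI (Vph a z₀) ≠ -1 := by
    intro hV
    have hL := eI_Lam_odd a hS hV
    rw [lkw, hS, hV, hL] at hre
    simp only [mul_neg, mul_one, Complex.add_re, Complex.neg_re, Complex.ofReal_re] at hre
    linarith
  obtain ⟨k, hk, h1, h2⟩ : ∃ k : ℕ, k < a + 1 ∧ 2 * (k : ℝ) + 1 < pos (a + 1) z₀ ∧
      pos (a + 1) z₀ < 2 * k + 2 := by
    rcases rest_or_turn (T := a + 1) (pos_mem (a + 1) z₀).1 (pos_mem (a + 1) z₀).2 with
      ⟨k, hk, h1, h2⟩ | h
    · exact absurd (by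
        unfold Vph
        rw [prof_eq_rest hk h1 h2, show Real.pi + 2 * Real.pi * k = Real.pi + 2 * k * Real.pi by
          ring]
        exact eI_odd k) hV
    · exact h
  have hal : (0 : ℝ) < 2 * ((a + 1 : ℕ) : ℝ) + 1 := by positivity
  have hlift := angLift_Vph hz₀ hk h1 h2
  have hVc : ContinuousAt (Vph a) z₀ := hlift.continuousAt hz₀
  have hmap : ContinuousAt (fun x : ℂ × ℂ => (x.1, Vph a x.2)) (y₀, z₀) :=
    continuousAt_fst.prodMk (ContinuousAt.comp (g := Vph a) (f := Prod.snd) hVc continuousAt_snd)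
  -- a filter lemma
  have hfil : ∀ {Q : ℂ → ℂ → Prop}, (∀ᶠ x in 𝓝 (y₀, z₀), Q x.1 x.2) →
      ∃ U ∈ 𝓝 z₀, ∀ᶠ p in 𝓝[Icc (0 : ℝ) 1 ×ˢ (univ : Set ℂ)] (t₀, y₀), ∀ z ∈ U, Q p.2 z := by
    intro Q hQ
    rw [nhds_prod_eq, eventually_prod_iff] at hQ
    obtain ⟨pa, ha, pb, hb, hab⟩ := hQ
    refine ⟨{z | pb z}, hb, ?_⟩
    have h3 : ∀ᶠ p : ℝ × ℂ in 𝓝 (t₀, y₀), pa p.2 := continuousAt_snd.eventually ha
    exact (h3.filter_mono nhdsWithin_le_nhds).mono fun p hp z hz => hab hp hz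
  rcases Lam_local hT hy₀ hS hV with h | ⟨w, hw, hwc, h⟩
  · -- the link is `|z| e^{iV}`
    obtain ⟨U, hU, hev⟩ := hfil (Q := fun y z => eI (Lam a (Sph T y) (Vph a z)) = eI (Vph a z)) (by
      filter_upwards [hmap.eventually h] with x hx
      exact hx (Vph_mem a x.2).1 (Vph_mem a x.2).2)
    have hz := RegAt.of_zdir (P := ℝ × ℂ) (s := Icc (0 : ℝ) 1 ×ˢ (univ : Set ℂ)) (p₀ := (t₀, y₀))
      (V := Vph a) (C := fun _ => 0) (W := fun _ => 0) (m := fun _ _ => 0) (Q := 0)
      hz₀ hal hlift le_rfl ⟨1, one_pos, Eventually.of_forall fun p r r' _ _ _ => by simp⟩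
      continuousWithinAt_const continuousWithinAt_const hz0 (by simp)
    refine hz.congr ⟨U, hU, ?_⟩
    filter_upwards [hev] with p hp z hz
    rw [lkw, hp z hz, zFn]
    simp only [sub_zero, mul_zero, add_zero, eI]
    push_cast
    ring
  · -- the link is `(|z| - b) e^{iV} + b w(y)`
    have hw0 : eI (Lam a (Sph T y₀) (Vph a z₀)) = -1 := by
      have := (hmap.eventually h).self_of_nhds
      rw [this (Vph_mem a z₀).1 (Vph_mem a z₀).2, hw]
    set β : ℝ × ℂ → ℝ := fun p => lam * (((1 - p.1) + p.1 * cy T a p.2) * ‖p.2‖) with hβ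
    have hblt : β (t₀, y₀) < ‖z₀‖ := by
      by_contra hcon
      have hbe : bw T a lam t₀ y₀ z₀ = ‖z₀‖ := min_eq_right (not_lt.mp hcon)
      rw [lkw, hbe, hS, hw0] at hre
      simp only [sub_self, Complex.ofReal_zero, zero_mul, zero_add, mul_neg, mul_one,
        Complex.add_re, Complex.neg_re, Complex.ofReal_re] at hre
      linarith
    have hβc : ContinuousAt β (t₀, y₀) := by
      have hc : ContinuousAt (fun p : ℝ × ℂ => cy T a p.2) (t₀, y₀) :=
        ContinuousAt.comp (g := cy T a) (f := Prod.snd) (continuousAt_cy hT hy₀) continuousAt_snd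
      exact continuousAt_const.mul (((continuousAt_const.sub continuousAt_fst).add
        (continuousAt_fst.mul hc)).mul (continuous_norm.continuousAt.comp continuousAt_snd))
    obtain ⟨U, hU, hev⟩ := hfil (Q := fun y z => eI (Lam a (Sph T y) (Vph a z)) = w y) (by
      filter_upwards [hmap.eventually h] with x hx
      exact hx (Vph_mem a x.2).1 (Vph_mem a x.2).2)
    have hz := RegAt.of_zdir (P := ℝ × ℂ) (s := Icc (0 : ℝ) 1 ×ˢ (univ : Set ℂ)) (p₀ := (t₀, y₀))
      (V := Vph a) (C := fun p => (β p : ℂ) * w p.2) (W := fun _ => 0) (m := fun p _ => β p)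
      (Q := 0) hz₀ hal hlift le_rfl
      ⟨1, one_pos, Eventually.of_forall fun p r r' _ _ _ => by simp⟩
      (ContinuousWithinAt.comp (t := Icc (0 : ℝ) 1 ×ˢ (univ : Set ℂ)) (g := β) (f := Prod.fst)
        hβc.continuousWithinAt continuousWithinAt_fst fun x hx => hx.1)
      continuousWithinAt_const hblt (by simp)
    -- near the point `b = β`
    obtain ⟨d, hd1, hd2⟩ := exists_between hblt
    have hev2 : ∀ᶠ p in 𝓝[Icc (0 : ℝ) 1 ×ˢ (univ : Set ℂ)] (t₀, y₀), β p < d :=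
      (hβc.eventually (gt_mem_nhds hd1)).filter_mono nhdsWithin_le_nhds
    have hU2 : {z : ℂ | d < ‖z‖} ∈ 𝓝 z₀ :=
      continuous_norm.continuousAt.eventually (lt_mem_nhds hd2)
    refine hz.congr ⟨U ∩ {z : ℂ | d < ‖z‖}, inter_mem hU hU2, ?_⟩
    filter_upwards [hev, hev2] with p hp hp2 z hz
    have hb : bw T a lam p.1 p.2 z = β p := min_eq_left (hp2.trans hz.2).le
    rw [lkw, hp z hz.1, hb, zFn]
    simp only [eI, mul_zero, add_zero]

end RV

end Vale.Agent.P268.T
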